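import Vale.Agent.P231.H775.Lift
import Vale.Agent.P231.H703.Link

/-! P231, block G: smoothness of `dE` along families. -/

set_option maxSynthPendingDepth 3
set_option linter.unusedSectionVars false

open Bundle Manifold Set Filter Module
open scoped ContDiff Manifold Topology

namespace Vale.Agent.P231.WG

open Vale.Agent.P234 Vale.Agent.P231 Vale.Agent.P231.H775

noncomputable section

variable {E : Type*} [NormedAddCommGroup E] [NormedSpace ℝ E] [FiniteDimensional ℝ E]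
  {M : Type*} [MetricSpace M] [ChartedSpace E M] [IsManifold 𝓘(ℝ, E) ∞ M]
  [RiemannianBundle (fun x : M => TangentSpace 𝓘(ℝ, E) x)]
  [IsContMDiffRiemannianBundle 𝓘(ℝ, E) ∞ E (fun x : M => TangentSpace 𝓘(ℝ, E) x)]
  {e : ∀ x : M, TangentSpace 𝓘(ℝ, E) x → M}
  {V : Type*} [NormedAddCommGroup V] [NormedSpace ℝ V]

theorem vec_congr (x₀ : M) {x y : M} (h : x = y) (a : E) : (vec x₀ x a : E) = (vec x₀ y a : E) := by
  subst h
  rfl

/-- the differential of the exponential map is smooth along smooth families -/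
theorem smV_dE (he : IsExp e) {f : V → M} {v w : ∀ s, TangentSpace 𝓘(ℝ, E) (f s)} {s₀ : V}
    (hv : ∀ᶠ s in 𝓝 s₀, SmV f v s) (hw : ∀ᶠ s in 𝓝 s₀, SmV f w s) :
    SmV (fun s => e (f s) (v s)) (fun s => (dE e (f s) (v s) (w s) : E)) s₀ := by
  set g : V × ℝ → M := fun z => e (f z.1) (v z.1 + z.2 • w z.1) with hg
  have hfst : Tendsto (Prod.fst : V × ℝ → V) (𝓝 (s₀, 0)) (𝓝 s₀) := continuous_fst.tendsto _
  have h1 : ∀ᶠ z in 𝓝 ((s₀, 0) : V × ℝ), ContMDiffAt 𝓘(ℝ, V × ℝ) 𝓘(ℝ, E) ∞ g z := by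
    filter_upwards [hfst.eventually hv, hfst.eventually hw] with z hz1 hz2
    have k1 : SmV (fun z : V × ℝ => f z.1) (fun z => v z.1) z :=
      SmV.comp (h := Prod.fst) hz1 contDiffAt_fst
    have k2 : SmV (fun z : V × ℝ => f z.1) (fun z => w z.1) z :=
      SmV.comp (h := Prod.fst) hz2 contDiffAt_fst
    exact (k1.add (k2.smul contDiffAt_snd)).exp he
  set x₀ : M := g (s₀, 0) with hx₀
  set q : V × ℝ → E := fun z => extChartAt 𝓘(ℝ, E) x₀ (g z) with hq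
  have hsrc : ∀ᶠ z in 𝓝 ((s₀, 0) : V × ℝ), g z ∈ (extChartAt 𝓘(ℝ, E) x₀).source :=
    h1.self_of_nhds.continuousAt.eventually
      ((isOpen_extChartAt_source x₀).mem_nhds (mem_extChartAt_source (I := 𝓘(ℝ, E)) x₀))
  have h2 : ∀ᶠ z in 𝓝 ((s₀, 0) : V × ℝ), ContDiffAt ℝ ∞ q z := by
    filter_upwards [h1, hsrc] with z hz1 hz2
    have k : ContMDiffAt 𝓘(ℝ, V × ℝ) 𝓘(ℝ, E) ∞ q z :=
      (contMDiffAt_extChartAt' (exm_mem_source hz2)).comp z hz1
    exact k.contDiffAt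
  have hin : ContDiffAt ℝ ∞ (fun s : V => ((s, 0) : V × ℝ)) s₀ :=
    contDiffAt_id.prodMk contDiffAt_const
  have hin' : Tendsto (fun s : V => ((s, 0) : V × ℝ)) (𝓝 s₀) (𝓝 (s₀, 0)) :=
    hin.continuousAt.tendsto
  have hξ : ContDiffAt ℝ ∞ (fun s => fderiv ℝ q (s, 0) (0, 1)) s₀ :=
    ((h2.self_of_nhds.fderiv_right (m := ∞) (by simp)).comp s₀ hin).clm_apply contDiffAt_const
  have hg0 : ContMDiffAt 𝓘(ℝ, V) 𝓘(ℝ, E) ∞ (fun s => g (s, 0)) s₀ :=
    h1.self_of_nhds.comp s₀ hin.contMDiffAt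
  have h3 := smV_vec x₀ (f := fun s => g (s, 0)) (s := s₀) hsrc.self_of_nhds hg0 hξ
  have hbase : ∀ s, g (s, 0) = e (f s) (v s) := by
    intro s
    simp only [hg, zero_smul, add_zero]
  unfold SmV at h3 ⊢
  refine h3.congr_of_eventuallyEq ?_
  filter_upwards [hin'.eventually h2, hin'.eventually hsrc, hin'.eventually h1] with s hs1 hs2 hs3
  refine tb_congr (hbase s).symm ?_
  have hc : HasDerivAt (fun t : ℝ => v s + t • w s) (w s) 0 := by
    have k := ((hasDerivAt_id (0 : ℝ)).smul_const (w s)).const_add (v s)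
    simpa using k
  have k1 := mfderiv_exp_curve he (f s) hc
  have hcur : ContDiffAt ℝ ∞ (fun t : ℝ => ((s, t) : V × ℝ)) 0 :=
    contDiffAt_const.prodMk contDiffAt_id
  have hder : HasDerivAt (fun t : ℝ => q (s, t)) (fderiv ℝ q (s, 0) (0, 1)) 0 := by
    have k2 : HasDerivAt (fun t : ℝ => ((s, t) : V × ℝ)) (0, 1) 0 :=
      (hasDerivAt_const (0 : ℝ) s).prodMk (hasDerivAt_id (0 : ℝ))
    exact ((hs1.differentiableAt (by simp)).hasFDerivAt (x := (s, (0 : ℝ)))).comp_hasDerivAt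
      (0 : ℝ) k2
  have htar : (fun t : ℝ => q (s, t)) 0 ∈ (extChartAt 𝓘(ℝ, E) x₀).target :=
    (extChartAt 𝓘(ℝ, E) x₀).map_source hs2
  have k3 := mfderiv_curve_chart x₀ (q := fun t : ℝ => q (s, t)) (t := 0) htar
    hder.differentiableAt
  rw [hder.deriv] at k3
  have k4 : (fun t : ℝ => (extChartAt 𝓘(ℝ, E) x₀).symm (q (s, t))) =ᶠ[𝓝 0]
      fun t : ℝ => e (f s) (v s + t • w s) := by
    have k5 : ContinuousAt (fun t : ℝ => g (s, t)) 0 :=
      hs3.continuousAt.comp_of_eq hcur.continuousAt rfl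
    filter_upwards [k5.eventually ((isOpen_extChartAt_source (I := 𝓘(ℝ, E)) x₀).mem_nhds hs2)]
      with t ht
    exact (extChartAt 𝓘(ℝ, E) x₀).left_inv ht
  have k6 : (mfderiv 𝓘(ℝ, ℝ) 𝓘(ℝ, E) (fun t : ℝ => e (f s) (v s + t • w s)) 0 (1 : ℝ) : E) =
      (dch x₀ (q (s, 0)) (fderiv ℝ q (s, 0) (0, 1)) : E) := by
    rw [← rel_congr_raw k4]
    exact k3
  have k7 : (dch x₀ (q (s, 0)) (fderiv ℝ q (s, 0) (0, 1)) : E) =
      (vec x₀ (g (s, 0)) (fderiv ℝ q (s, 0) (0, 1)) : E) :=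
    vec_congr x₀ ((extChartAt 𝓘(ℝ, E) x₀).left_inv hs2) _
  have k8 : ((v s + (0 : ℝ) • w s : TangentSpace 𝓘(ℝ, E) (f s)) : E) = (v s : E) := by
    rw [zero_smul, add_zero]
  have k9 : (dE e (f s) ((v s + (0 : ℝ) • w s : TangentSpace 𝓘(ℝ, E) (f s)) : E) (w s) : E) =
      dE e (f s) (v s) (w s) := by rw [k8]
  exact (k9.symm.trans (k1.symm.trans (k6.trans k7)))

end

end Vale.Agent.P231.WG
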