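import Vale.Agent.P231.Q.Phi

/-!
# P231, block G: kernel vectors of fibre integrals
-/

set_option linter.unusedSectionVars false
set_option linter.unusedVariables false

open MeasureTheory Set Module Filter Topology
open scoped ContDiff

namespace Vale.Agent.P231.WG

open Vale.Agent.P231.Fm Vale.Agent.P231.Q

noncomputable section

variable {E : Type*} [NormedAddCommGroup E] [NormedSpace ℝ E] [FiniteDimensional ℝ E]
variable {F : Type*} [NormedAddCommGroup F] [NormedSpace ℝ F] [FiniteDimensional ℝ F]
  [MeasurableSpace F] [BorelSpace F]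

/-- contraction as an alternating map with values in forms -/
def contA {k : ℕ} (w : Lam E) : E [⋀^Fin k]→ₗ[ℝ] Lam E where
  toFun v := cont v w
  map_update_add' := by
    intro inst v i x y
    obtain rfl : inst = instDecidableEqFin k := Subsingleton.elim _ _
    exact cont_update_add _ _ _ _ _
  map_update_smul' := by
    intro inst v i c x
    obtain rfl : inst = instDecidableEqFin k := Subsingleton.elim _ _
    exact cont_update_smul _ _ _ _ _
  map_eq_zero_of_eq' := fun v i j h hij => cont_eq_zero v w h hij

/-- contraction of a form killed by one of the vectors -/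
theorem cont_of_mem {k : ℕ} (u : Fin k → E) (z : E) (w : Lam E) (j : Fin k) (hj : u j = z)
    (hw : iprod z w = 0) : cont u w = 0 := by
  induction k generalizing w with
  | zero => exact j.elim0
  | succ k ih =>
    rw [cont_succ]
    induction j using Fin.cases with
    | zero => rw [hj, hw, map_zero]
    | succ j =>
      refine ih _ _ j hj ?_
      rw [iprod_anticomm, hw, map_zero, neg_zero]

/-- an alternating map which vanishes on families containing `z ≠ 0` vanishes on bases -/
theorem alt_basis_zero {N : Type*} [AddCommGroup N] [Module ℝ N] {k : ℕ}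
    (b : Basis (Fin k) ℝ F) (g : F [⋀^Fin k]→ₗ[ℝ] N) {z : F} (hz : z ≠ 0)
    (hg : ∀ (v : Fin k → F) (i : Fin k), v i = z → g v = 0) : g b = 0 := by
  obtain ⟨i, hi⟩ : ∃ i, b.repr z i ≠ 0 := by
    by_contra h
    push Not at h
    exact hz (b.repr.map_eq_zero_iff.1 (Finsupp.ext h))
  have h1 : g (Function.update b i z) = b.repr z i • g b := by
    have hs : z = ∑ j, b.repr z j • b j := (b.sum_repr z).symm
    conv_lhs => rw [hs]
    rw [AlternatingMap.map_update_sum, Finset.sum_eq_single i]
    · rw [AlternatingMap.map_update_smul, Function.update_eq_self]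
    · intro j _ hj
      rw [AlternatingMap.map_update_smul, AlternatingMap.map_update_self _ _ (Ne.symm hj),
        smul_zero]
    · intro h
      exact absurd (Finset.mem_univ _) h
  have h2 := hg (Function.update b i z) i (Function.update_self _ _ _)
  rw [h1] at h2
  exact (smul_eq_zero.1 h2).resolve_left hi

/-- a form with a nonzero vertical kernel vector has zero slice -/
theorem slice_eq_zero {k : ℕ} (b : Basis (Fin k) ℝ F) {w : Lam (E × F)} {z : F} (hz : z ≠ 0)
    (hw : iprod ((0, z) : E × F) w = 0) : slice b w = 0 := by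
  rw [slice_apply]
  have h1 := alt_basis_zero b ((contA (k := k) w).compLinearMap (LinearMap.inr ℝ E F)) hz
    (fun v i hi => by
      change cont (fun i => ((0, v i) : E × F)) w = 0
      exact cont_of_mem _ ((0, z) : E × F) w i (by rw [hi]) hw)
  have h2 : cont (vert (E := E) b) w = 0 := h1
  rw [h2, map_zero]

/-- one more vertical vector kills the slice -/
theorem slice_iprod_vert {k : ℕ} (b : Basis (Fin k) ℝ F) (u : F) (w : Lam (E × F)) :
    slice b (iprod ((0, u) : E × F) w) = 0 := by
  rw [slice_apply]
  have h1 : ((0, u) : E × F) = ∑ i, b.repr u i • vert (E := E) b i := by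
    have h2 : u = ∑ j, b.repr u j • b j := (b.sum_repr u).symm
    have h3 := congrArg (LinearMap.inr ℝ E F) h2
    rw [map_sum] at h3
    simp only [map_smul] at h3
    exact h3
  have h4 : ∀ (s : Finset (Fin k)) (c : Fin k → ℝ),
      iprod (∑ i ∈ s, c i • vert (E := E) b i) w = ∑ i ∈ s, c i • iprod (vert (E := E) b i) w := by
    intro s c
    induction s using Finset.induction_on with
    | empty =>
      rw [Finset.sum_empty, Finset.sum_empty, iprod_zero_left]
    | insert i s hi ih => rw [Finset.sum_insert hi, Finset.sum_insert hi, iprod_add, ih, iprod_smul]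
  rw [h1, h4, map_sum]
  have h5 : ∀ i ∈ Finset.univ, cont (vert (E := E) b)
      (b.repr u i • iprod (vert (E := E) b i) w) = 0 := fun i _ => by
    rw [map_smul, cont_eq_zero_aux _ _ _ ⟨i, rfl⟩, smul_zero]
  rw [Finset.sum_eq_zero h5, map_zero]

/-- contraction of a slice with a horizontal vector -/
theorem iprod_slice {k : ℕ} (u : E) (v : Fin k → F) (w : Lam (E × F)) :
    iprod u (slice v w) = (-1 : ℝ) ^ k • slice v (iprod ((u, 0) : E × F) w) := by
  rw [slice_apply, slice_apply, pull_iprod]
  have h : (ContinuousLinearMap.inl ℝ E F) u = ((u, 0) : E × F) := rfl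
  rw [h, iprod_cont, map_smul]

theorem iprod_ps (u : E) (z : F) (a : F →L[ℝ] ℝ) :
    iprod ((u, z) : E × F) (ps (dx a)) = algebraMap ℝ _ (a z) := by
  rw [ps, pull_iprod, iprod_dx]
  have h : (ContinuousLinearMap.snd ℝ E F) ((u, z) : E × F) = z := rfl
  rw [h, AlgHom.commutes]

theorem inv_ps_dx (a : F →L[ℝ] ℝ) : inv (ps (E := E) (dx a)) = -ps (dx a) := by
  rw [ps, ← pull_inv, inv_dx, map_neg]

/-- the pointwise computation -/
theorem iprod_slice_cut {k : ℕ} (b : Basis (Fin k) ℝ F) (a : F →L[ℝ] ℝ) {w : Lam (E × F)}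
    {κ : E} {z y : F} (hy : y ≠ 0) (h1 : iprod ((0, y) : E × F) w = 0)
    (h2 : iprod ((κ, z) : E × F) w = 0) : iprod κ (slice b (ps (dx a) * w)) = 0 := by
  have h3 : iprod ((κ, 0) : E × F) w = -iprod ((0, z) : E × F) w := by
    have h4 : ((κ, z) : E × F) = (κ, 0) + (0, z) := by simp
    rw [h4, iprod_add] at h2
    exact eq_neg_of_add_eq_zero_left h2
  have h5 : iprod ((κ, 0) : E × F) (ps (dx a) * w) = ps (dx a) * iprod ((0, z) : E × F) w := by
    rw [iprod_mul, iprod_ps, map_zero, map_zero, zero_mul, zero_add, inv_ps_dx, h3, neg_mul,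
      mul_neg, neg_neg]
  have h6 : ps (dx a) * iprod ((0, z) : E × F) w =
      a z • w - iprod ((0, z) : E × F) (ps (dx a) * w) := by
    rw [iprod_mul, iprod_ps, inv_ps_dx, ← Algebra.smul_def]
    simp only [neg_mul]
    abel
  rw [iprod_slice, h5, h6, map_sub, slice_iprod_vert, map_smul, slice_eq_zero b hy h1, smul_zero,
    sub_zero, smul_zero]

/-- **a kernel vector of a fibre integral** -/
theorem iprod_phi_eq_zero (μ : Measure F) {k : ℕ} (b : Basis (Fin k) ℝ F) {r : F → ℝ}
    {K : Set F} (h : Cut r K) {w : E × F → Lam (E × F)} {x κ : E}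
    (h1 : ∀ y, y ≠ 0 → iprod ((0, y) : E × F) (w (x, y)) = 0)
    (h2 : ∀ y, y ≠ 0 → ∃ z, iprod ((κ, z) : E × F) (w (x, y)) = 0) :
    iprod κ (phi μ b r w x) = 0 := by
  have key : ∀ y, iprod κ (slice b (cw r w (x, y))) = 0 := by
    intro y
    by_cases hy : y = 0
    · subst hy
      have h3 : dR r (0 : F) = 0 := h.dR_near.self_of_nhds
      simp only [cw, h3, ps, map_zero, zero_mul]
    · obtain ⟨z, hz⟩ := h2 y hy
      exact iprod_slice_cut b (fderiv ℝ r y) hy (h1 y hy) hz
  rw [phi, fib]
  by_cases hi : Integrable (fun y => slice (E := E) b (cw r w (x, y))) μ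
  · have h3 := ContinuousLinearMap.integral_comp_comm (iprodL κ) hi
    have h4 : iprodL κ (∫ y, slice (E := E) b (cw r w (x, y)) ∂μ) = 0 := by
      rw [← h3]
      have h5 : (fun y => iprodL κ (slice (E := E) b (cw r w (x, y)))) = fun _ => 0 :=
        funext key
      rw [h5, integral_zero]
    exact h4
  · rw [integral_undef hi, map_zero]

end

end Vale.Agent.P231.WG
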