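import Vale.Agent.P231.W.Defs
import Vale.Agent.P231.WF.Dim
import Vale.Agent.P231.Q.Main

/-!
# P231, block G: the fundamental cycle of the unit tangent bundle

`cc X v0 (ξ, η) = (exp_p ξ, B_ξ η / |B_ξ η|)` and the functional
`II w = ∫_{|ξ| < D} ∫_{S^N} cc^* w`.
-/

set_option maxSynthPendingDepth 3
set_option linter.unusedSectionVars false
set_option linter.unusedVariables false

open Bundle Manifold Set Filter Module Topology MeasureTheory
open scoped ContDiff Manifold Topology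

namespace Vale.Agent.P231.WG

noncomputable section

open Vale.Agent.P234 Vale.Agent.P231 Vale.Agent.P231.Fm Vale.Agent.P231.W Vale.Agent.P231.H775

variable {E : Type*} [NormedAddCommGroup E] [NormedSpace ℝ E]
  {M : Type*} [MetricSpace M] [ChartedSpace E M]
  [RiemannianBundle (fun x : M => TangentSpace 𝓘(ℝ, E) x)]
  {e : ∀ x : M, TangentSpace 𝓘(ℝ, E) x → M}
  [FiniteDimensional ℝ E] [IsManifold 𝓘(ℝ, E) ∞ M]
  [IsContMDiffRiemannianBundle 𝓘(ℝ, E) ∞ E (fun x : M => TangentSpace 𝓘(ℝ, E) x)]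

/-- a smooth frame along the exponential map at `p` -/
structure Fr (e : ∀ x : M, TangentSpace 𝓘(ℝ, E) x → M) (p : M) (R : ℝ) where
  /-- the frame -/
  B : Eu E → Eu E →L[ℝ] E
  sm : ∀ ξ, ‖ξ‖ < R → ∀ η, SmV (fun z : Eu E × Eu E => ef e p z.1) (fun z => B z.1 z.2) (ξ, η)
  inj : ∀ ξ, ‖ξ‖ < R → Function.Injective (B ξ)
  zero : ∀ η, B 0 η = fr p η

variable {p : M} {R : ℝ}

/-- the norm of the frame vector -/
def Fr.nr (X : Fr e p R) (z : Eu E × Eu E) : ℝ := nm (ef e p z.1) (X.B z.1 z.2)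

theorem Fr.nr_pos (X : Fr e p R) {z : Eu E × Eu E} (h1 : ‖z.1‖ < R) (h2 : z.2 ≠ 0) :
    0 < X.nr z := by
  refine lt_of_le_of_ne (nm_nonneg _ _) fun h => h2 ?_
  have h3 : (X.B z.1 z.2 : E) = 0 := norm_eq_zero (E := TangentSpace 𝓘(ℝ, E) (ef e p z.1)) |>.1 h.symm
  exact X.inj z.1 h1 (h3.trans (map_zero _).symm)

theorem nm_normalize (x : M) (v : E) (h : nm x v ≠ 0) : nm x ((nm x v)⁻¹ • v) = 1 := by
  rw [nm_smul (E := E) x v (nm x v)⁻¹, abs_of_nonneg (inv_nonneg.2 (nm_nonneg _ _)),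
    inv_mul_cancel₀ h]

open Classical in
/-- the coordinates of the unit tangent bundle -/
def cc (X : Fr e p R) (v0 : UT E M) (z : Eu E × Eu E) : UT E M :=
  if h : X.nr z ≠ 0 then mk (ef e p z.1) ((X.nr z)⁻¹ • X.B z.1 z.2) (nm_normalize _ _ h) else v0

theorem cc_of (X : Fr e p R) (v0 : UT E M) {z : Eu E × Eu E} (h : X.nr z ≠ 0) :
    cc X v0 z = mk (ef e p z.1) ((X.nr z)⁻¹ • X.B z.1 z.2) (nm_normalize _ _ h) := dif_pos h

theorem cc_eq (X : Fr e p R) (v0 : UT E M) {z : Eu E × Eu E} (h1 : ‖z.1‖ < R) (h2 : z.2 ≠ 0) :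
    cc X v0 z = mk (ef e p z.1) ((X.nr z)⁻¹ • X.B z.1 z.2)
      (nm_normalize _ _ (X.nr_pos h1 h2).ne') := dif_pos (X.nr_pos h1 h2).ne'

theorem foot_cc (X : Fr e p R) (v0 : UT E M) {z : Eu E × Eu E} (h1 : ‖z.1‖ < R) (h2 : z.2 ≠ 0) :
    foot (cc X v0 z) = ef e p z.1 := by
  rw [cc_eq X v0 h1 h2]
  rfl

theorem isOpen_dom (R : ℝ) : IsOpen (Metric.ball (0 : Eu E) R ×ˢ ({0}ᶜ : Set (Eu E))) :=
  Metric.isOpen_ball.prod isOpen_compl_singleton

/-- `cc` is a plot -/
theorem at_cc (X : Fr e p R) (v0 : UT E M) {z : Eu E × Eu E} (h1 : ‖z.1‖ < R) (h2 : z.2 ≠ 0) :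
    (dUT E M).At (cc X v0) z := by
  have h3 : ∀ᶠ y in 𝓝 z, ‖y.1‖ < R ∧ y.2 ≠ 0 := by
    filter_upwards [(isOpen_dom (E := E) R).mem_nhds ⟨mem_ball_zero_iff.2 h1, h2⟩] with y hy
    exact ⟨mem_ball_zero_iff.1 hy.1, hy.2⟩
  have h4 : (dTM E M).At (fun y => ((cc X v0) y).1) z := by
    filter_upwards [h3.eventually_nhds] with y hy
    have hy0 := hy.self_of_nhds
    have h5 : X.B y.1 y.2 ≠ 0 := fun h => by
      have h6 := (X.nr_pos hy0.1 hy0.2).ne'
      apply h6
      change nm _ (X.B y.1 y.2) = 0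
      rw [h]
      exact norm_zero (E := TangentSpace 𝓘(ℝ, E) (ef e p y.1))
    have h6 := WF.smV_normalize (f := fun z : Eu E × Eu E => ef e p z.1)
      (u := fun z => X.B z.1 z.2) (s := y) (X.sm y.1 hy0.1 y.2) h5
    refine ContMDiffAt.congr_of_eventuallyEq h6 ?_
    filter_upwards [hy] with y' hy'
    rw [cc_eq X v0 hy'.1 hy'.2]
    rfl
  exact h4

/-- positive rescaling of the fibre variable -/
theorem cc_smul (X : Fr e p R) (v0 : UT E M) {z : Eu E × Eu E} (h1 : ‖z.1‖ < R) (h2 : z.2 ≠ 0)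
    {t : ℝ} (ht : 0 < t) : cc X v0 (z.1, t • z.2) = cc X v0 z := by
  have h3 : t • z.2 ≠ 0 := smul_ne_zero ht.ne' h2
  rw [cc_eq X v0 h1 h2, cc_eq X v0 (z := (z.1, t • z.2)) h1 h3]
  refine mk_congr rfl ?_
  have h4 : X.nr (z.1, t • z.2) = t * X.nr z := by
    change nm _ (X.B z.1 (t • z.2)) = t * nm _ (X.B z.1 z.2)
    rw [map_smul]
    have := nm_smul (E := E) (ef e p z.1) (X.B z.1 z.2) t
    rw [abs_of_pos ht] at this
    exact this
  change (X.nr (z.1, t • z.2))⁻¹ • X.B z.1 (t • z.2) = (X.nr z)⁻¹ • X.B z.1 z.2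
  rw [h4, map_smul, smul_smul, mul_inv, mul_comm t⁻¹, mul_assoc, inv_mul_cancel₀ ht.ne', mul_one]

/-- smoothness of the coordinate form -/
theorem contDiffOn_val (X : Fr e p R) (v0 : UT E M) (w : Form (dUT E M)) :
    ContDiffOn ℝ ∞ (w.val (cc X v0)) (Metric.ball 0 R ×ˢ {0}ᶜ) := by
  rintro z ⟨h1, h2⟩
  exact (w.smooth (at_cc X v0 (mem_ball_zero_iff.1 h1) h2)).contDiffWithinAt

variable {k : ℕ}

/-- the fibre integral -/
def th (X : Fr e p R) (v0 : UT E M) (b : Basis (Fin k) ℝ (Eu E)) (r : Eu E → ℝ)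
    (w : Form (dUT E M)) : Eu E → Lam (Eu E) := Q.phi volume b r (w.val (cc X v0))

section Th

variable (X : Fr e p R) (v0 : UT E M) (b : Basis (Fin k) ℝ (Eu E)) {r : Eu E → ℝ}
  {K : Set (Eu E)} (hr : Q.Cut r K)

include hr in
theorem contDiffOn_th (w : Form (dUT E M)) : ContDiffOn ℝ ∞ (th X v0 b r w) (Metric.ball 0 R) :=
  Q.contDiffOn_phi volume b hr Metric.isOpen_ball (contDiffOn_val X v0 w)

include hr in
theorem th_add (v w : Form (dUT E M)) {x : Eu E} (hx : x ∈ Metric.ball 0 R) :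
    th X v0 b r (v + w) x = th X v0 b r v x + th X v0 b r w x := by
  have h1 := Q.integrable_slice volume b hr Metric.isOpen_ball (contDiffOn_val X v0 v) hx
  have h2 := Q.integrable_slice volume b hr Metric.isOpen_ball (contDiffOn_val X v0 w) hx
  have h3 := integral_add h1 h2
  refine Eq.trans ?_ h3
  refine integral_congr_ae (Eventually.of_forall fun y => ?_)
  change slice b (Q.ps (Q.dR r y) * (v.val _ _ + w.val _ _)) =
    slice b (Q.ps (Q.dR r y) * v.val _ _) + slice b (Q.ps (Q.dR r y) * w.val _ _)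
  rw [mul_add, map_add]

include hr in
theorem th_smul (c : ℝ) (w : Form (dUT E M)) {x : Eu E} (hx : x ∈ Metric.ball 0 R) :
    th X v0 b r (c • w) x = c • th X v0 b r w x := by
  have h2 := Q.integrable_slice volume b hr Metric.isOpen_ball (contDiffOn_val X v0 w) hx
  refine Eq.trans ?_ (integral_smul c _)
  refine integral_congr_ae (Eventually.of_forall fun y => ?_)
  change slice b (Q.ps (Q.dR r y) * (c • w.val _ _)) =
    c • slice b (Q.ps (Q.dR r y) * w.val _ _)
  rw [mul_smul_comm, map_smul]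

include hr in
theorem integrableOn_th {D : ℝ} (hDR : D < R) (w : Form (dUT E M)) :
    IntegrableOn (fun x => evalForm (th X v0 b r w x) b) (Metric.ball 0 D) volume := by
  have h1 : ContinuousOn (fun x => evalL (b : Fin k → Eu E) (th X v0 b r w x))
      (Metric.closedBall 0 D) :=
    (evalL (b : Fin k → Eu E)).continuous.comp_continuousOn
      ((contDiffOn_th X v0 b hr w).continuousOn.mono (Metric.closedBall_subset_ball hDR))
  exact (h1.integrableOn_compact (isCompact_closedBall 0 D)).mono_set Metric.ball_subset_closedBall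

/-- **the fundamental cycle of the unit tangent bundle**, as a linear form -/
def II {D : ℝ} (hDR : D < R) : Form (dUT E M) →ₗ[ℝ] ℝ where
  toFun w := ∫ x in Metric.ball 0 D, evalForm (th X v0 b r w x) b
  map_add' v w := by
    rw [← integral_add (integrableOn_th X v0 b hr hDR v) (integrableOn_th X v0 b hr hDR w)]
    refine setIntegral_congr_fun measurableSet_ball fun x hx => ?_
    have h := th_add X v0 b hr v w (Metric.ball_subset_ball hDR.le hx)
    rw [h, Q.evalForm_add]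
  map_smul' c w := by
    rw [RingHom.id_apply, smul_eq_mul, ← integral_const_mul]
    refine setIntegral_congr_fun measurableSet_ball fun x hx => ?_
    have h := th_smul X v0 b hr c w (Metric.ball_subset_ball hDR.le hx)
    rw [h, Q.evalForm_smul]

theorem II_apply {D : ℝ} (hDR : D < R) (w : Form (dUT E M)) :
    II X v0 b hr hDR w = ∫ x in Metric.ball 0 D, evalForm (th X v0 b r w x) b := rfl

end Th

end

end Vale.Agent.P231.WG
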