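import Vale.Agent.P231.WG.DE

/-! P231, block G: a smooth frame of `TM` along the exponential map. -/

set_option maxSynthPendingDepth 3
set_option linter.unusedSectionVars false

open Bundle Manifold Set Filter Module
open scoped ContDiff Manifold Topology

namespace Vale.Agent.P231.WG

open Vale.Agent.P234 Vale.Agent.P231 Vale.Agent.P231.H775

noncomputable section

variable {E : Type*} [NormedAddCommGroup E] [NormedSpace ℝ E] [FiniteDimensional ℝ E]
  {M : Type*} [MetricSpace M] [ChartedSpace E M] [IsManifold 𝓘(ℝ, E) ∞ M]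
  [RiemannianBundle (fun x : M => TangentSpace 𝓘(ℝ, E) x)]
  [IsContMDiffRiemannianBundle 𝓘(ℝ, E) ∞ E (fun x : M => TangentSpace 𝓘(ℝ, E) x)]
  {e : ∀ x : M, TangentSpace 𝓘(ℝ, E) x → M}
  {V : Type*} [NormedAddCommGroup V] [NormedSpace ℝ V]

/-- smooth vector fields with constant base point -/
theorem smV_const (p : M) {u : V → TangentSpace 𝓘(ℝ, E) p} {s : V} (hu : ContDiffAt ℝ ∞ u s) :
    SmV (fun _ => p) u s := by
  have h1 : ContMDiff 𝓘(ℝ, TangentSpace 𝓘(ℝ, E) p) (𝓘(ℝ, E).tangent) ∞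
      (fun v : TangentSpace 𝓘(ℝ, E) p => (⟨p, v⟩ : TangentBundle 𝓘(ℝ, E) M)) := by
    intro v
    rw [Bundle.contMDiffAt_totalSpace]
    refine ⟨contMDiffAt_const, ?_⟩
    have hz : p ∈ (trivializationAt E (TangentSpace 𝓘(ℝ, E)) p).baseSet :=
      FiberBundle.mem_baseSet_trivializationAt' p
    let L : TangentSpace 𝓘(ℝ, E) p →ₗ[ℝ] E :=
      (trivializationAt E (TangentSpace 𝓘(ℝ, E)) p).linearMapAt ℝ p
    have h2 : ContMDiffAt 𝓘(ℝ, TangentSpace 𝓘(ℝ, E) p) 𝓘(ℝ, E) ∞ L v :=
      (L.toContinuousLinearMap.contDiff (n := ∞)).contMDiff.contMDiffAt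
    refine h2.congr_of_eventuallyEq (Eventually.of_forall fun w => ?_)
    simp only [L]
    rw [Trivialization.coe_linearMapAt_of_mem _ hz]
  exact h1.contMDiffAt.comp s hu.contMDiffAt

/-- `fr` with values in the tangent space -/
def frT (p : M) (ξ : Eu E) : TangentSpace 𝓘(ℝ, E) p := (fr (E := E) p ξ : E)

/-- `fr` as a smooth map into the tangent space with its Riemannian norm -/
theorem contDiff_frT (p : M) : ContDiff ℝ ∞ (frT (E := E) p) := by
  let L : Eu E →ₗ[ℝ] TangentSpace 𝓘(ℝ, E) p :=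
    { toFun := frT p
      map_add' := fun a b => (fr (E := E) p).map_add a b
      map_smul' := fun c a => (fr (E := E) p).map_smul c a }
  exact L.toContinuousLinearMap.contDiff

/-- points and vectors on the geodesic with initial vector `ξ` -/
theorem smV_gv (F : Facts e) (p : M) (a : ℝ) {V : Type*} [NormedAddCommGroup V] [NormedSpace ℝ V]
    {f : V → Eu E} {s : V} (hf : ContDiffAt ℝ ∞ f s) :
    SmV (fun z => gam e p (fr p (f z) : E) a) (fun z => (vel e p (fr p (f z) : E) a : E)) s := by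
  have h1 : SmV (fun _ : V => p) (fun z => frT p (f z)) s :=
    smV_const p ((contDiff_frT p).contDiffAt.comp s hf)
  have h2 : ContMDiffAt 𝓘(ℝ, V) (𝓘(ℝ, ℝ).prod 𝓘(ℝ, E).tangent) ∞
      (fun z => (a, (⟨p, frT p (f z)⟩ : TangentBundle 𝓘(ℝ, E) M))) s :=
    contMDiffAt_const.prodMk h1
  exact ContMDiffAt.comp s (contMDiff_flow F).contMDiffAt h2

/-- the frame after `k` of `m` steps -/
def Bk (e : ∀ x : M, TangentSpace 𝓘(ℝ, E) x → M) (p : M) (m : ℝ) (ξ : Eu E) :
    ℕ → (Eu E →L[ℝ] E)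
  | 0 => ((fr (E := E) p : Eu E ≃L[ℝ] E) : Eu E →L[ℝ] E)
  | k + 1 => (LinearMap.toContinuousLinearMap
      (dEl e (gam e p (fr p ξ : E) (k / m)) (m⁻¹ • vel e p (fr p ξ : E) (k / m)))).comp (Bk e p m ξ k)

theorem Bk_succ (p : M) (m : ℝ) (ξ : Eu E) (k : ℕ) (η : Eu E) : Bk e p m ξ (k + 1) η =
    dE e (gam e p (fr p ξ : E) (k / m)) (m⁻¹ • vel e p (fr p ξ : E) (k / m)) (Bk e p m ξ k η) := rfl

theorem Bk_smooth (F : Facts e) (p : M) {m : ℝ} (hm : m ≠ 0) (k : ℕ) (z : Eu E × Eu E) :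
    SmV (fun z : Eu E × Eu E => gam e p (fr p z.1 : E) (k / m))
      (fun z => (Bk e p m z.1 k z.2 : E)) z := by
  induction k generalizing z with
  | zero =>
    have h1 : SmV (fun _ : Eu E × Eu E => p)
        (fun z => frT p z.2) z :=
      smV_const p ((contDiff_frT p).contDiffAt.comp z contDiffAt_snd)
    unfold SmV at h1 ⊢
    refine h1.congr_of_eventuallyEq (Eventually.of_forall fun z => tb_congr ?_ rfl)
    rw [Nat.cast_zero, zero_div]
    exact gam_zero F.isExp _ _
  | succ k ih =>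
    have h1 : ∀ z : Eu E × Eu E, SmV (fun z : Eu E × Eu E => gam e p (fr p z.1 : E) (k / m))
        (fun z => (m⁻¹ • vel e p (fr p z.1 : E) (k / m) : E)) z := fun z =>
      (smV_gv F p (k / m) (f := fun z : Eu E × Eu E => z.1) contDiffAt_fst).smul contDiffAt_const
    have h2 := smV_dE F.isExp (s₀ := z) (Eventually.of_forall h1) (Eventually.of_forall ih)
    unfold SmV at h2 ⊢
    refine h2.congr_of_eventuallyEq (Eventually.of_forall fun z => tb_congr ?_ ?_)
    · have h3 := gam_flow F p (fr p z.1 : E) (k / m) m⁻¹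
      have h4 : ((k : ℝ) / m + m⁻¹) = ((k + 1 : ℕ) : ℝ) / m := by
        push_cast
        field_simp
      rw [h4] at h3
      exact h3.symm
    · exact Bk_succ p m z.1 k z.2

variable [CompactSpace M] [ConnectedSpace M] [IsRiemannianManifold 𝓘(ℝ, E) M]

theorem Bk_inj (F : Facts e) {D : ℝ} (hB : InjGE e D) (p : M) {m : ℝ} (hm : 0 < m) {ξ : Eu E}
    (hξ : ‖ξ‖ / m < D) (k : ℕ) : Function.Injective (Bk e p m ξ k) := by
  induction k with
  | zero => exact (fr (E := E) p).injective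
  | succ k ih =>
    have h1 : nm (gam e p (fr p ξ : E) (k / m)) (m⁻¹ • vel e p (fr p ξ : E) (k / m)) < D := by
      rw [nm_smul, nm_vel F, nm_fr, abs_of_pos (inv_pos.2 hm), inv_mul_eq_div]
      exact hξ
    have h2 : Function.Injective
        (dEl e (gam e p (fr p ξ : E) (k / m)) (m⁻¹ • vel e p (fr p ξ : E) (k / m))) := by
      rw [← LinearMap.ker_eq_bot, LinearMap.ker_eq_bot']
      intro w hw
      exact dE_injective F hB h1 hw
    exact h2.comp ih

/-- a smooth frame along the exponential map, on any ball -/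
theorem exists_frame_exp (F : Facts e) {D : ℝ} (hD : 0 < D) (hB : InjGE e D) (p : M) (R : ℝ) :
    ∃ B : Eu E → Eu E →L[ℝ] E,
      (∀ z : Eu E × Eu E, SmV (fun z : Eu E × Eu E => ef e p z.1) (fun z => (B z.1 z.2 : E)) z) ∧
      (∀ ξ, ‖ξ‖ < R → Function.Injective (B ξ)) ∧ ∀ η, B 0 η = (fr p η : E) := by
  obtain ⟨m, hm⟩ : ∃ m : ℕ, R / D < (m : ℝ) := exists_nat_gt _
  have hm1 : (0 : ℝ) < (m : ℝ) + 1 := by positivity
  refine ⟨fun ξ => Bk e p (m + 1) ξ (m + 1), fun z => ?_, fun ξ hξ => ?_, ?_⟩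
  · have h1 := Bk_smooth F p hm1.ne' (m + 1) z
    unfold SmV at h1 ⊢
    refine h1.congr_of_eventuallyEq (Eventually.of_forall fun z => tb_congr ?_ rfl)
    have h2 : (((m + 1 : ℕ) : ℝ)) / ((m : ℝ) + 1) = 1 := by
      push_cast
      exact div_self hm1.ne'
    rw [h2]
    have h3 : ((1 : ℝ) • frT p z.1) = frT p z.1 := one_smul _ _
    exact (congrArg (e p) h3).symm
  · refine Bk_inj F hB p hm1 ?_ _
    rw [div_lt_iff₀ hD] at hm
    rw [div_lt_iff₀ hm1]
    nlinarith only [hm, hξ, hD]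
  · have h : ∀ k (η : Eu E), Bk e p (m + 1) (0 : Eu E) k η = (fr p η : E) := by
      intro k
      induction k with
      | zero => intro η; rfl
      | succ k ih =>
        intro η
        rw [Bk_succ, ih]
        have h1 : (((m : ℝ) + 1)⁻¹ • vel e p (fr p (0 : Eu E) : E) (k / ((m : ℝ) + 1)) : E) = 0 := by
          rw [map_zero]
          have h2 := nm_vel F p (0 : E) (k / ((m : ℝ) + 1))
          have h3 : nm (E := E) p (0 : E) = 0 := norm_zero (E := TangentSpace 𝓘(ℝ, E) p)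
          rw [h3] at h2
          have h4 : vel e p (0 : E) (k / ((m : ℝ) + 1)) = 0 :=
            norm_eq_zero (E := TangentSpace 𝓘(ℝ, E)
              (gam e p (0 : E) (k / ((m : ℝ) + 1)))) |>.1 h2
          rw [h4, smul_zero]
        rw [h1]
        exact dE_zero_base F.isExp _ _
    exact h (m + 1)

end

end Vale.Agent.P231.WG
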