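import Vale.Agent.P231.WG.Bas
import Vale.Agent.P231.WF.Conn
import Vale.Agent.P231.WR.Rot

/-!
# P231, block G4: basic forms of the geodesic flow and of the rotation flow have no top degree part
-/

set_option maxSynthPendingDepth 3
set_option linter.unusedSectionVars false
set_option linter.unusedVariables false

open Bundle Manifold Set Filter Module
open scoped ContDiff Manifold Topology

namespace Vale.Agent.P231.WG

noncomputable section

open Vale.Agent.P234 Vale.Agent.P231 Vale.Agent.P231.Fm Vale.Agent.P231.W Vale.Agent.P231.WR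
  Vale.Agent.P231.H775

variable {E : Type*} [NormedAddCommGroup E] [NormedSpace ℝ E] [FiniteDimensional ℝ E]
  {M : Type*} [MetricSpace M] [ChartedSpace E M] [IsManifold 𝓘(ℝ, E) ∞ M]
  [RiemannianBundle (fun x : M => TangentSpace 𝓘(ℝ, E) x)]
  [IsContMDiffRiemannianBundle 𝓘(ℝ, E) ∞ E (fun x : M => TangentSpace 𝓘(ℝ, E) x)]
  {e : ∀ x : M, TangentSpace 𝓘(ℝ, E) x → M}
  [CompactSpace M] [ConnectedSpace M] [IsRiemannianManifold 𝓘(ℝ, E) M]

theorem vec'_ne_zero (v : UT E M) : (vec' v : E) ≠ 0 := by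
  intro h
  have h1 := nm_vec' v
  rw [h] at h1
  have h2 : nm (foot v) (0 : E) = 0 := norm_zero (E := TangentSpace 𝓘(ℝ, E) (foot v))
  rw [h2] at h1
  exact zero_ne_one h1

/-- the geodesic flow moves -/
theorem moves_phi (F : Facts e) (v : UT E M) : Moves (dUT E M) (phi F) v := by
  obtain ⟨l, hl⟩ := SeparatingDual.exists_eq_one (R := ℝ) (vec'_ne_zero v)
  refine ⟨fun v' => l (extChartAt 𝓘(ℝ, E) (foot v) (foot v')), ?_, 1, one_ne_zero, ?_⟩
  · intro E' _ _ _ u x hu hux
    have h1 : ContMDiffAt 𝓘(ℝ, E') 𝓘(ℝ, E) ∞ (foot ∘ u) x :=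
      Filter.Eventually.self_of_nhds (map_foot hu)
    have h2 : foot (u x) ∈ (extChartAt 𝓘(ℝ, E) (foot v)).source := by
      rw [hux]
      exact mem_extChartAt_source (foot v)
    have h3 : ContMDiffAt 𝓘(ℝ, E') 𝓘(ℝ, E) ∞
        (fun y => extChartAt 𝓘(ℝ, E) (foot v) (foot (u y))) x :=
      (contMDiffAt_extChartAt' (exm_mem_source h2)).comp x h1
    exact l.differentiableAt.comp x (h3.contDiffAt.differentiableAt (by simp))
  · have h1 := hasDerivAt_exp_chart F.isExp (foot v) (vec' (E := E) v : E)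
    have h2 := l.hasFDerivAt.comp_hasDerivAt (0 : ℝ) h1
    rw [hl] at h2
    exact h2

/-- the rotation flow moves -/
theorem moves_rot {D : ℝ} {w : UT E M → UT E M} (h : IsSec e D w) (v : UT E M) :
    Moves (dUT E M) h.rot v := by
  have hne : crd (foot v) (foot v) (vec' (E := E) (w v) : E) ≠ 0 := by
    intro h0
    have h1 := vec_crd (foot v) (mem_extChartAt_source (foot v)) (vec' (E := E) (w v) : E)
    rw [h0, map_zero] at h1
    exact vec'_ne_zero (w v) h1.symm
  obtain ⟨l, hl⟩ := SeparatingDual.exists_eq_one (R := ℝ) hne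
  refine ⟨fun v' => l (crd (foot v) (foot v') (vec' (E := E) v' : E)), ?_, 1, one_ne_zero, ?_⟩
  · intro E' _ _ _ u x hu hux
    have h1 : SmV (fun y => foot (u y)) (fun y => (vec' (E := E) (u y) : E)) x :=
      Filter.Eventually.self_of_nhds hu
    have h2 : foot (u x) ∈ (extChartAt 𝓘(ℝ, E) (foot v)).source := by
      rw [hux]
      exact mem_extChartAt_source (foot v)
    have h3 := ((smV_iff (f := fun y => foot (u y)) (u := fun y => (vec' (E := E) (u y) : E))
      (foot v) h2).1 h1).2
    exact l.differentiableAt.comp x (h3.differentiableAt (by simp))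
  · have h1 : (fun s : ℝ => l (crd (foot v) (foot (h.rot (v, s)))
        (vec' (E := E) (h.rot (v, s)) : E))) = fun s : ℝ =>
        Real.cos s * l (crd (foot v) (foot v) (vec' (E := E) v : E)) +
          Real.sin s * l (crd (foot v) (foot v) (vec' (E := E) (w v) : E)) := by
      funext s
      have h2 : crd (foot v) (foot v) (Real.cos s • vec' (E := E) v + Real.sin s • vec' (w v) : E)
          = Real.cos s • crd (foot v) (foot v) (vec' (E := E) v : E) +
            Real.sin s • crd (foot v) (foot v) (vec' (E := E) (w v) : E) := by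
        exact (map_add (crd (E := E) (foot v) (foot v)) _ _).trans
          (congrArg₂ (· + ·) (map_smul (crd (E := E) (foot v) (foot v)) _ _)
            (map_smul (crd (E := E) (foot v) (foot v)) _ _))
      change l (crd (foot v) (foot v) (Real.cos s • vec' (E := E) v +
        Real.sin s • vec' (w v) : E)) = _
      rw [h2, map_add, map_smul, map_smul, smul_eq_mul, smul_eq_mul]
    rw [h1, hl]
    have h2 := ((Real.hasDerivAt_cos 0).mul_const
      (l (crd (foot v) (foot v) (vec' (E := E) v : E)))).fun_add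
      ((Real.hasDerivAt_sin 0).mul_const (1 : ℝ))
    simpa using h2

/-- a linear form which only sees the top degree part kills the forms which are basic for a flow
that moves every point -/
theorem int_basic_eq_zero {N : ℕ} (hN : finrank ℝ E = N + 1) (I : Form (dUT E M) →ₗ[ℝ] ℝ)
    (hIm : ∀ w, I w = I (Form.part (2 * N + 1) w)) {Φ : UT E M × ℝ → UT E M}
    (hΦ : ((dUT E M).prod (Dif.lin ℝ)).Map (dUT E M) Φ) (h0 : ∀ v, Φ (v, 0) = v)
    (hmv : ∀ v, Moves (dUT E M) Φ v) (w : Form (dUT E M)) (hb : Basic Φ hΦ w) : I w = 0 := by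
  have hb' : Basic Φ hΦ (Form.part (2 * N + 1) w) := by
    change Form.pull Φ hΦ (Form.part (2 * N + 1) w) = pr (Form.part (2 * N + 1) w)
    rw [← Form.part_pull, hb]
    exact Form.part_pull _ _ (Dif.map_fst (D := dUT E M) (D' := Dif.lin ℝ)) w
  rw [hIm, basic_top_eq_zero (WF.dimEq_UT E M hN) hΦ h0 hmv (Form.isDeg_part _ w) hb', map_zero]

/-- the input `hIφ` of `L/Core` -/
theorem int_basic_phi (F : Facts e) {N : ℕ} (hN : finrank ℝ E = N + 1)
    (I : Form (dUT E M) →ₗ[ℝ] ℝ) (hIm : ∀ w, I w = I (Form.part (2 * N + 1) w))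
    (w : Form (dUT E M)) (hb : Basic (phi F) (map_phi F) w) : I w = 0 :=
  int_basic_eq_zero hN I hIm (map_phi F) (phi_zero F) (moves_phi F) w hb

/-- the input `hIρ` of `L/Core` -/
theorem int_basic_rot {N : ℕ} (hN : finrank ℝ E = N + 1) (I : Form (dUT E M) →ₗ[ℝ] ℝ)
    (hIm : ∀ w, I w = I (Form.part (2 * N + 1) w)) {D : ℝ} {s : UT E M → UT E M}
    (h : IsSec e D s) {c : ℝ} (hρ : IsFlow (dUT E M) c h.rot) (w : Form (dUT E M))
    (hb : Basic h.rot hρ.map w) : I w = 0 :=
  int_basic_eq_zero hN I hIm hρ.map hρ.zero (moves_rot h) w hb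

end

end Vale.Agent.P231.WG
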