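import Vale.Agent.P231.WG.Frame
import Vale.Agent.P231.WG.Cyc

/-!
# P231, block G1: the frame as a structure
-/

set_option maxSynthPendingDepth 3
set_option linter.unusedSectionVars false

open Bundle Manifold Set Filter Module
open scoped ContDiff Manifold Topology

namespace Vale.Agent.P231.WG

open Vale.Agent.P234 Vale.Agent.P231 Vale.Agent.P231.H775

noncomputable section

variable {E : Type*} [NormedAddCommGroup E] [NormedSpace ℝ E] [FiniteDimensional ℝ E]
  {M : Type*} [MetricSpace M] [ChartedSpace E M] [IsManifold 𝓘(ℝ, E) ∞ M]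
  [RiemannianBundle (fun x : M => TangentSpace 𝓘(ℝ, E) x)]
  [IsContMDiffRiemannianBundle 𝓘(ℝ, E) ∞ E (fun x : M => TangentSpace 𝓘(ℝ, E) x)]
  {e : ∀ x : M, TangentSpace 𝓘(ℝ, E) x → M}
  [CompactSpace M] [ConnectedSpace M] [IsRiemannianManifold 𝓘(ℝ, E) M]

/-- existence of smooth frames along the exponential map -/
theorem nonempty_fr (F : Facts e) {D : ℝ} (hD : 0 < D) (hB : InjGE e D) (p : M) (R : ℝ) :
    Nonempty (Fr e p R) := by
  obtain ⟨B, h1, h2, h3⟩ := exists_frame F hD hB p R
  exact ⟨{ B := fun ξ => LinearMap.toContinuousLinearMap (B ξ)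
           sm := fun ξ _ η => h1 (ξ, η)
           inj := fun ξ hξ => h2 ξ hξ
           zero := h3 }⟩

end

end Vale.Agent.P231.WG
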