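import Vale.Agent.P231.Q.Phi

/-!
# P231, block G: Stokes' theorem on a ball with degenerate boundary
-/

set_option linter.unusedSectionVars false
set_option linter.unusedVariables false

open MeasureTheory Set Module Filter Topology Metric
open scoped ContDiff

namespace Vale.Agent.P231.WG

open Vale.Agent.P231.Fm Vale.Agent.P231.Q

noncomputable section

variable {V : Type*} [NormedAddCommGroup V] [InnerProductSpace ℝ V] [FiniteDimensional ℝ V]
  [MeasurableSpace V] [BorelSpace V]

/-- a thin shell -/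
def shell (V : Type*) [NormedAddCommGroup V] (D τ : ℝ) : Set V := closedBall 0 D \ ball 0 (D - τ)

theorem mem_shell {D τ : ℝ} {x : V} : x ∈ shell V D τ ↔ D - τ ≤ ‖x‖ ∧ ‖x‖ ≤ D := by
  rw [shell, Set.mem_sdiff, mem_closedBall_zero_iff, mem_ball_zero_iff, not_lt, and_comm]

theorem measurableSet_shell (D τ : ℝ) : MeasurableSet (shell V D τ) :=
  measurableSet_closedBall.diff measurableSet_ball

/-- the volume of a thin shell -/
theorem shell_volume (μ : Measure V) [μ.IsAddHaarMeasure] {D : ℝ} (hD : 0 < D) :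
    ∃ C : ℝ, 0 ≤ C ∧ ∀ τ, 0 < τ → τ < D → μ.real (shell V D τ) ≤ C * τ := by
  refine ⟨finrank ℝ V * D ^ (finrank ℝ V - 1) * μ.real (ball (0 : V) 1), by positivity,
    fun τ h0 h1 => ?_⟩
  have h2 : μ.real (closedBall (0 : V) D) = D ^ finrank ℝ V * μ.real (ball (0 : V) 1) :=
    Measure.addHaar_real_closedBall μ 0 hD.le
  have h3 : μ.real (ball (0 : V) (D - τ)) = (D - τ) ^ finrank ℝ V * μ.real (ball (0 : V) 1) := by
    rw [measureReal_def, Measure.addHaar_ball_of_pos μ (0 : V) (by linarith : 0 < D - τ),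
      ENNReal.toReal_mul, ENNReal.toReal_ofReal (pow_nonneg (by linarith) _), measureReal_def]
  have h4 : μ.real (shell V D τ) = μ.real (closedBall (0 : V) D) - μ.real (ball (0 : V) (D - τ)) :=
    measureReal_sdiff (ball_subset_closedBall.trans (closedBall_subset_closedBall (by linarith)))
      measurableSet_ball (measure_closedBall_lt_top).ne
  have h5 := abs_pow_sub_pow_le D (D - τ) (finrank ℝ V)
  rw [sub_sub_cancel, abs_of_pos h0, abs_of_pos hD, abs_of_pos (by linarith : 0 < D - τ),
    max_eq_left (by linarith)] at h5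
  rw [h4, h2, h3, ← sub_mul]
  have h6 := mul_le_mul_of_nonneg_right ((le_abs_self _).trans h5)
    (measureReal_nonneg (μ := μ) (s := ball (0 : V) 1))
  refine h6.trans (le_of_eq ?_)
  ring

/-- a continuous function on the closed ball which vanishes on the boundary is small near the
boundary -/
theorem small_near {D : ℝ} (hD : 0 < D) {θ : V → ℝ} (hθ : ContinuousOn θ (closedBall 0 D))
    (h0 : ∀ x, ‖x‖ = D → θ x = 0) {ε : ℝ} (hε : 0 < ε) :
    ∃ δ, 0 < δ ∧ ∀ x, D - δ < ‖x‖ → ‖x‖ ≤ D → |θ x| < ε := by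
  have h1 := (isCompact_closedBall (0 : V) D).uniformContinuousOn_of_continuous hθ
  rw [Metric.uniformContinuousOn_iff] at h1
  obtain ⟨δ, hδ, h2⟩ := h1 ε hε
  refine ⟨min δ D, lt_min hδ hD, fun x hx1 hx2 => ?_⟩
  have hx0 : 0 < ‖x‖ := by
    have := min_le_right δ D
    linarith
  have h3 : ‖(D / ‖x‖) • x‖ = D := by
    rw [norm_smul, Real.norm_of_nonneg (by positivity), div_mul_cancel₀ _ hx0.ne']
  have h4 : dist x ((D / ‖x‖) • x) < δ := by
    have h5 : x - (D / ‖x‖) • x = (1 - D / ‖x‖) • x := by rw [sub_smul, one_smul]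
    rw [dist_eq_norm, h5, norm_smul, Real.norm_eq_abs]
    have h6 : |1 - D / ‖x‖| * ‖x‖ = D - ‖x‖ := by
      rw [abs_of_nonpos (by rw [sub_nonpos, one_le_div hx0]; exact hx2)]
      field_simp
      ring
    rw [h6]
    have := min_le_left δ D
    linarith
  have h5 := h2 x (mem_closedBall_zero_iff.2 hx2) ((D / ‖x‖) • x)
    (mem_closedBall_zero_iff.2 h3.le) h4
  rw [h0 _ h3, Real.dist_eq, sub_zero] at h5
  exact h5

/-- the radial cutoff -/
def cutB (D τ : ℝ) (x : V) : ℝ := Real.smoothTransition ((D - ‖x‖) / τ)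

theorem cutB_out {D τ : ℝ} (hτ : 0 < τ) {x : V} (hx : D ≤ ‖x‖) : cutB D τ x = 0 :=
  Real.smoothTransition.zero_of_nonpos (div_nonpos_of_nonpos_of_nonneg (by linarith) hτ.le)

theorem cutB_in {D τ : ℝ} (hτ : 0 < τ) {x : V} (hx : ‖x‖ ≤ D - τ) : cutB D τ x = 1 :=
  Real.smoothTransition.one_of_one_le (by rw [one_le_div hτ]; linarith)

theorem cutB_nonneg (D τ : ℝ) (x : V) : 0 ≤ cutB D τ x := Real.smoothTransition.nonneg _

theorem cutB_le_one (D τ : ℝ) (x : V) : cutB D τ x ≤ 1 := Real.smoothTransition.le_one _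

/-- the derivative of the transition function is bounded -/
theorem exists_bound : ∃ K : ℝ, 0 ≤ K ∧ ∀ t, |deriv Real.smoothTransition t| ≤ K := by
  have hc : Continuous (deriv Real.smoothTransition) :=
    (Real.smoothTransition.contDiff (n := 1)).continuous_deriv le_rfl
  obtain ⟨K, hK⟩ := (isCompact_Icc (a := (0 : ℝ)) (b := 1)).exists_bound_of_continuousOn
    hc.continuousOn
  refine ⟨max K 0, le_max_right _ _, fun t => ?_⟩
  by_cases ht : t ∈ Icc (0 : ℝ) 1
  · exact (hK t ht).trans (le_max_left _ _)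
  · have h1 : deriv Real.smoothTransition t = 0 := by
      rw [mem_Icc, not_and_or, not_le, not_le] at ht
      rcases ht with ht | ht
      · have : Real.smoothTransition =ᶠ[𝓝 t] fun _ => 0 := by
          filter_upwards [Iio_mem_nhds ht] with s hs
          exact Real.smoothTransition.zero_of_nonpos (le_of_lt hs)
        rw [this.deriv_eq, deriv_const]
      · have : Real.smoothTransition =ᶠ[𝓝 t] fun _ => 1 := by
          filter_upwards [Ioi_mem_nhds ht] with s hs
          exact Real.smoothTransition.one_of_one_le (le_of_lt hs)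
        rw [this.deriv_eq, deriv_const]
    rw [h1, abs_zero]
    exact le_max_right _ _

theorem contDiff_cutB {D τ : ℝ} (hτ : 0 < τ) (hτD : τ < D) : ContDiff ℝ 1 (cutB (V := V) D τ) := by
  rw [contDiff_iff_contDiffAt]
  intro x
  by_cases hx : x = 0
  · subst hx
    have h1 : cutB (V := V) D τ =ᶠ[𝓝 0] fun _ => 1 := by
      filter_upwards [ball_mem_nhds (0 : V) (show 0 < D - τ by linarith)] with y hy
      exact cutB_in hτ (mem_ball_zero_iff.1 hy).le
    exact (contDiffAt_const (c := (1 : ℝ))).congr_of_eventuallyEq h1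
  · have h1 : ContDiffAt ℝ 1 (fun x : V => (D - ‖x‖) / τ) x :=
      (contDiffAt_const.sub (contDiffAt_norm ℝ hx)).div_const τ
    exact (Real.smoothTransition.contDiff (n := 1)).contDiffAt.comp x h1

/-- the differential of the radial cutoff -/
theorem fderiv_cutB {D τ : ℝ} (hτ : 0 < τ) {x : V} (hx : x ≠ 0) :
    fderiv ℝ (cutB (V := V) D τ) x =
      (-(deriv Real.smoothTransition ((D - ‖x‖) / τ) / (τ * ‖x‖))) • (innerSL ℝ x : V →L[ℝ] ℝ) := by
  have hx0 : 0 < ‖x‖ := norm_pos_iff.2 hx
  have h0 : HasFDerivAt (fun y : V => ‖y‖) ((‖x‖)⁻¹ • (innerSL ℝ x : V →L[ℝ] ℝ)) x := by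
    have h1 : HasFDerivAt (fun y : V => ‖y‖ ^ 2) (2 • (innerSL ℝ x : V →L[ℝ] ℝ)) x :=
      (hasStrictFDerivAt_norm_sq x).hasFDerivAt
    have h2 := h1.sqrt (pow_ne_zero 2 hx0.ne')
    have h3 : (fun y : V => Real.sqrt (‖y‖ ^ 2)) = fun y => ‖y‖ := by
      funext y
      exact Real.sqrt_sq (norm_nonneg y)
    rw [h3, Real.sqrt_sq hx0.le] at h2
    have h4 : (1 / (2 * ‖x‖)) • (2 • (innerSL ℝ x : V →L[ℝ] ℝ)) =
        (‖x‖)⁻¹ • (innerSL ℝ x : V →L[ℝ] ℝ) := by
      ext y
      simp only [smul_apply, smul_eq_mul, nsmul_eq_mul, Nat.cast_ofNat]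
      field_simp
    rw [h4] at h2
    exact h2
  have h1 : HasFDerivAt (fun y : V => (D - ‖y‖) / τ)
      (-((τ⁻¹ * (‖x‖)⁻¹) • (innerSL ℝ x : V →L[ℝ] ℝ))) x := by
    have h2 := (h0.const_sub D).mul_const τ⁻¹
    have h3 : (fun y : V => (D - ‖y‖) / τ) = fun y => (D - ‖y‖) * τ⁻¹ := by
      funext y
      rw [div_eq_mul_inv]
    rw [h3]
    refine h2.congr_fderiv ?_
    rw [smul_neg, smul_smul]
  have h2 : HasDerivAt Real.smoothTransition (deriv Real.smoothTransition ((D - ‖x‖) / τ))
      ((D - ‖x‖) / τ) :=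
    ((Real.smoothTransition.contDiff (n := 1)).differentiable one_ne_zero _).hasDerivAt
  have h3 := h2.comp_hasFDerivAt x h1
  have h4 : fderiv ℝ (cutB (V := V) D τ) x = _ := h3.fderiv
  rw [h4, smul_neg, smul_smul, neg_smul]
  congr 2
  field_simp

/-- **Stokes on a ball**, with boundary integrand zero -/
theorem ball_stokes (μ : Measure V) [μ.IsAddHaarMeasure] {k : ℕ} (b : Fin k → V) {D : ℝ}
    (hD : 0 < D) {U : Set V} (hU : IsOpen U) (hsub : closedBall 0 D ⊆ U) {Φ : V → Lam V}
    (hΦ : ContDiffOn ℝ 1 Φ U)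
    (h0 : ∀ x, ‖x‖ = D → evalForm (dx (innerSL ℝ x : V →L[ℝ] ℝ) * Φ x) b = 0) :
    ∫ x in ball (0 : V) D, evalForm (extd Φ x) b ∂μ = 0 := by
  obtain ⟨C, hC, hvol⟩ := shell_volume (V := V) μ hD
  obtain ⟨K, hK, hKb⟩ := exists_bound
  -- the integrands
  set o : V → ℝ := fun x => evalForm (extd Φ x) b with ho
  set θ : V → ℝ := fun x => evalForm (dx (innerSL ℝ x : V →L[ℝ] ℝ) * Φ x) b with hθ
  have hdiff : ∀ x ∈ U, DifferentiableAt ℝ Φ x := fun x hx =>
    (hΦ.differentiableOn one_ne_zero).differentiableAt (hU.mem_nhds hx)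
  have hoc : ContinuousOn o (closedBall 0 D) := by
    have h1 : ContinuousOn (fderiv ℝ Φ) U := hΦ.continuousOn_fderiv_of_isOpen hU le_rfl
    have h2 : ContinuousOn (extd Φ) U := dLin.continuous.comp_continuousOn h1
    exact ((evalL (E := V) b).continuous.comp_continuousOn h2).mono hsub
  have hθc : ContinuousOn θ (closedBall 0 D) := by
    have h1 : Continuous fun x : V => dx (innerSL ℝ x : V →L[ℝ] ℝ) :=
      (dx (E := V)).continuous.comp (innerSL ℝ).continuous
    have h2 : ContinuousOn (fun x => dx (innerSL ℝ x : V →L[ℝ] ℝ) * Φ x) (closedBall 0 D) :=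
      h1.continuousOn.mul (hΦ.continuousOn.mono hsub)
    exact (evalL (E := V) b).continuous.comp_continuousOn h2
  obtain ⟨S, hS⟩ := (isCompact_closedBall (0 : V) D).exists_bound_of_continuousOn hoc
  have hS0 : 0 ≤ S := (norm_nonneg _).trans (hS 0 (mem_closedBall_self hD.le))
  -- the estimate
  have key : ∀ ε, 0 < ε → ∀ τ, 0 < τ → τ ≤ D / 2 →
      (∀ x, D - τ ≤ ‖x‖ → ‖x‖ ≤ D → |θ x| ≤ ε) →
      |∫ x in ball (0 : V) D, o x ∂μ| ≤ (S + K * ε * 2 / (τ * D)) * (C * τ) := by
    intro ε hε τ hτ hτD hsm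
    set g : V → ℝ := cutB D τ with hg
    have hgs : ContDiff ℝ 1 g := contDiff_cutB hτ (by linarith)
    set w : V → Lam V := fun x => g x • Φ x with hw
    have hws : ContDiff ℝ 1 w := by
      rw [contDiff_iff_contDiffAt]
      intro x
      by_cases hx : x ∈ U
      · exact hgs.contDiffAt.smul (hΦ.contDiffAt (hU.mem_nhds hx))
      · have hx1 : D < ‖x‖ := by
          by_contra h
          exact hx (hsub (mem_closedBall_zero_iff.2 (not_lt.1 h)))
        have h1 : w =ᶠ[𝓝 x] fun _ => 0 := by
          filter_upwards [continuous_norm.continuousAt.eventually (lt_mem_nhds hx1)] with y hy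
          simp only [hw]
          rw [show g y = 0 from cutB_out hτ (le_of_lt hy), zero_smul]
        exact (contDiffAt_const (c := (0 : Lam V))).congr_of_eventuallyEq h1
    have hwc : HasCompactSupport w := HasCompactSupport.intro (isCompact_closedBall (0 : V) D)
      fun x hx => by
        rw [mem_closedBall_zero_iff, not_le] at hx
        simp only [hw]
        rw [show g x = 0 from cutB_out hτ hx.le, zero_smul]
    have hst := integral_evalForm_extd μ b hws hwc
    -- continuity of the total integrand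
    have hext : Continuous fun x => evalForm (extd w x) b := by
      have h1 : Continuous (fderiv ℝ w) := hws.continuous_fderiv one_ne_zero
      exact (evalL (E := V) b).continuous.comp (dLin.continuous.comp h1)
    have hexi : Integrable (fun x => evalForm (extd w x) b) μ := by
      refine hext.integrable_of_hasCompactSupport ?_
      refine HasCompactSupport.intro (isCompact_closedBall (0 : V) D) fun x hx => ?_
      rw [mem_closedBall_zero_iff, not_le] at hx
      have h1 : w =ᶠ[𝓝 x] fun _ => 0 := by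
        filter_upwards [continuous_norm.continuousAt.eventually (lt_mem_nhds hx)] with y hy
        simp only [hw]
        rw [show g y = 0 from cutB_out hτ (le_of_lt hy), zero_smul]
      rw [extd_congr h1, extd_const]
      exact (evalL b).map_zero
    -- the difference of the integrands
    have hball : ∫ x in ball (0 : V) D, o x ∂μ = ∫ x, (ball (0 : V) D).indicator o x ∂μ :=
      (integral_indicator measurableSet_ball).symm
    have hoi : Integrable ((ball (0 : V) D).indicator o) μ := by
      rw [integrable_indicator_iff measurableSet_ball]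
      exact (hoc.integrableOn_compact (isCompact_closedBall _ _)).mono_set ball_subset_closedBall
    have hsubt : ∫ x in ball (0 : V) D, o x ∂μ =
        ∫ x, ((ball (0 : V) D).indicator o x - evalForm (extd w x) b) ∂μ := by
      rw [integral_sub hoi hexi, hst, sub_zero, hball]
    have hsupp : ∀ x, x ∉ shell V D τ →
        (ball (0 : V) D).indicator o x - evalForm (extd w x) b = 0 := by
      intro x hx
      rw [mem_shell, not_and_or, not_le, not_le] at hx
      rcases hx with hx | hx
      · rw [indicator_of_mem (mem_ball_zero_iff.2 (by linarith))]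
        have h1 : w =ᶠ[𝓝 x] Φ := by
          filter_upwards [continuous_norm.continuousAt.eventually (gt_mem_nhds hx)] with y hy
          simp only [hw]
          rw [show g y = 1 from cutB_in hτ (le_of_lt hy), one_smul]
        rw [extd_congr h1, sub_self]
      · rw [indicator_of_notMem (by rw [mem_ball_zero_iff]; linarith)]
        have h1 : w =ᶠ[𝓝 x] fun _ => 0 := by
          filter_upwards [continuous_norm.continuousAt.eventually (lt_mem_nhds hx)] with y hy
          simp only [hw]
          rw [show g y = 0 from cutB_out hτ (le_of_lt hy), zero_smul]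
        rw [extd_congr h1, extd_const, zero_sub, neg_eq_zero]
        exact (evalL b).map_zero
    have hbd : ∀ x ∈ shell V D τ,
        ‖(ball (0 : V) D).indicator o x - evalForm (extd w x) b‖ ≤ S + K * ε * 2 / (τ * D) := by
      intro x hx
      rw [mem_shell] at hx
      have hx0 : x ≠ 0 := by
        rintro rfl
        rw [norm_zero] at hx
        linarith [hx.1]
      have hxp : D / 2 ≤ ‖x‖ := by linarith [hx.1]
      have hxU : x ∈ U := hsub (mem_closedBall_zero_iff.2 hx.2)
      have h1 : extd w x = dx (fderiv ℝ g x) * Φ x + g x • extd Φ x :=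
        extd_smul (hgs.differentiable one_ne_zero x) (hdiff x hxU)
      set c : ℝ := -(deriv Real.smoothTransition ((D - ‖x‖) / τ) / (τ * ‖x‖)) with hc
      have h2 : evalForm (extd w x) b = c * θ x + g x * o x := by
        rw [h1, hg, fderiv_cutB hτ hx0]
        change evalL b (dx (c • (innerSL ℝ x : V →L[ℝ] ℝ)) * Φ x + g x • extd Φ x) = _
        rw [map_smul, smul_mul_assoc, map_add, map_smul, map_smul]
        rfl
      have h3 : |c * θ x| ≤ K * ε * 2 / (τ * D) := by
        rw [abs_mul, hc, abs_neg, abs_div, abs_of_pos (show 0 < τ * ‖x‖ by positivity)]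
        have h4 := hKb ((D - ‖x‖) / τ)
        have h5 := hsm x hx.1 hx.2
        have h6 : |deriv Real.smoothTransition ((D - ‖x‖) / τ)| / (τ * ‖x‖) ≤ K / (τ * (D / 2)) :=
          div_le_div₀ hK h4 (by positivity) (mul_le_mul_of_nonneg_left hxp hτ.le)
        refine (mul_le_mul h6 h5 (abs_nonneg _) (by positivity)).trans (le_of_eq ?_)
        field_simp
      have h4 : |(ball (0 : V) D).indicator o x - g x * o x| ≤ S := by
        have h5 : |o x| ≤ S := hS x (mem_closedBall_zero_iff.2 hx.2)
        have h6 := cutB_nonneg D τ x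
        have h7 := cutB_le_one D τ x
        by_cases hb : x ∈ ball (0 : V) D
        · rw [indicator_of_mem hb]
          have h8 : o x - g x * o x = (1 - g x) * o x := by ring
          rw [h8, abs_mul, abs_of_nonneg (by simp only [hg]; linarith)]
          refine (mul_le_of_le_one_left (abs_nonneg _) (by simp only [hg]; linarith)).trans h5
        · rw [indicator_of_notMem hb, zero_sub, abs_neg, abs_mul, abs_of_nonneg h6]
          exact (mul_le_of_le_one_left (abs_nonneg _) h7).trans h5
      rw [h2, Real.norm_eq_abs]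
      have h5 : (ball (0 : V) D).indicator o x - (c * θ x + g x * o x) =
          ((ball (0 : V) D).indicator o x - g x * o x) - c * θ x := by ring
      rw [h5]
      exact (abs_sub _ _).trans (add_le_add h4 h3)
    have hfin : μ (shell V D τ) < ⊤ :=
      (measure_mono sdiff_subset).trans_lt measure_closedBall_lt_top
    rw [hsubt, ← setIntegral_eq_integral_of_forall_compl_eq_zero hsupp]
    refine (norm_setIntegral_le_of_norm_le_const hfin hbd).trans ?_
    exact mul_le_mul_of_nonneg_left (hvol τ hτ (by linarith)) (by positivity)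
  -- conclusion
  have hfin : |∫ x in ball (0 : V) D, o x ∂μ| ≤ 0 := by
    refine le_of_forall_pos_le_add fun η hη => ?_
    rw [zero_add]
    set B : ℝ := K * 2 / D * C with hB
    have hB0 : 0 ≤ B := by positivity
    obtain ⟨δ, hδ, hsm⟩ := small_near hD hθc h0 (ε := η / (2 * (B + 1))) (by positivity)
    set τ : ℝ := min (min (δ / 2) (D / 2)) (η / (2 * (S * C + 1))) with hτ
    have hτ0 : 0 < τ := by
      refine lt_min (lt_min (by positivity) (by positivity)) (by positivity)
    have hτ1 : τ ≤ δ / 2 := (min_le_left _ _).trans (min_le_left _ _)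
    have hτ2 : τ ≤ D / 2 := (min_le_left _ _).trans (min_le_right _ _)
    have hτ3 : τ ≤ η / (2 * (S * C + 1)) := min_le_right _ _
    have h1 := key (η / (2 * (B + 1))) (by positivity) τ hτ0 hτ2 fun x hx1 hx2 =>
      (hsm x (by linarith) hx2).le
    refine h1.trans ?_
    have h2 : (S + K * (η / (2 * (B + 1))) * 2 / (τ * D)) * (C * τ) =
        S * C * τ + B * (η / (2 * (B + 1))) := by
      rw [hB]
      field_simp
    rw [h2]
    have h3 : S * C * τ ≤ η / 2 := by
      have h4 : S * C * τ ≤ (S * C) * (η / (2 * (S * C + 1))) :=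
        mul_le_mul_of_nonneg_left hτ3 (by positivity)
      refine h4.trans ?_
      rw [mul_div_assoc', div_le_div_iff₀ (by positivity) (by positivity)]
      nlinarith [mul_nonneg (mul_nonneg hS0 hC) hη.le]
    have h4 : B * (η / (2 * (B + 1))) ≤ η / 2 := by
      rw [mul_div_assoc', div_le_div_iff₀ (by positivity) (by positivity)]
      nlinarith [mul_nonneg hB0 hη.le]
    linarith
  exact abs_eq_zero.1 (le_antisymm hfin (abs_nonneg _))

/-- **Stokes on a ball with degenerate boundary**: at every boundary point a nonzero tangential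
vector contracts the form to zero -/
theorem ball_stokes_of_iprod (μ : Measure V) [μ.IsAddHaarMeasure] {k : ℕ}
    (b : Basis (Fin k) ℝ V) {D : ℝ} (hD : 0 < D) {U : Set V} (hU : IsOpen U)
    (hsub : closedBall 0 D ⊆ U) {Φ : V → Lam V} (hΦ : ContDiffOn ℝ 1 Φ U)
    (h0 : ∀ x, ‖x‖ = D → ∃ κ : V, κ ≠ 0 ∧ inner ℝ x κ = (0 : ℝ) ∧ iprod κ (Φ x) = 0) :
    ∫ x in ball (0 : V) D, evalForm (extd Φ x) b ∂μ = 0 := by
  refine ball_stokes μ b hD hU hsub hΦ fun x hx => ?_
  obtain ⟨κ, h1, h2, h3⟩ := h0 x hx
  refine evalForm_eq_zero_of_iprod b h1 ?_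
  rw [iprod_mul, h3, mul_zero, add_zero, iprod_dx]
  change algebraMap ℝ (Lam V) (inner ℝ x κ) * Φ x = 0
  rw [h2, map_zero, zero_mul]

end

end Vale.Agent.P231.WG
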