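import Vale.Agent.P231.WG.Cyc

/-!
# P231, block G: local charts of the unit tangent bundle, the kernel lemma
-/

set_option maxSynthPendingDepth 3
set_option linter.unusedSectionVars false
set_option linter.unusedVariables false

open Bundle Manifold Set Filter Module Topology MeasureTheory
open scoped ContDiff Manifold Topology

namespace Vale.Agent.P231.WG

noncomputable section

open Vale.Agent.P234 Vale.Agent.P231 Vale.Agent.P231.Fm Vale.Agent.P231.W Vale.Agent.P231.H775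

section Abs

/-- a local parametrisation near `v0` with a smooth left inverse -/
structure Ret {X : Type*} (D : Dif X) (v0 : X) where
  /-- dimension of the coordinate space -/
  m : ℕ
  /-- the parametrisation -/
  κ : EuclideanSpace ℝ (Fin m) → X
  /-- the coordinates -/
  G : X → EuclideanSpace ℝ (Fin m)
  at_κ : D.At κ (G v0)
  smG : ∀ {V : Type} [NormedAddCommGroup V] [NormedSpace ℝ V] [FiniteDimensional ℝ V]
    {u : V → X} {x : V}, D.At u x → u x = v0 → Sm (G ∘ u) x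
  eq : ∀ {V : Type} [NormedAddCommGroup V] [NormedSpace ℝ V] [FiniteDimensional ℝ V]
    {u : V → X} {x : V}, D.At u x → u x = v0 → u =ᶠ[𝓝 x] κ ∘ (G ∘ u)

variable {X : Type*} {D : Dif X} {v0 : X}
variable {V : Type} [NormedAddCommGroup V] [NormedSpace ℝ V] [FiniteDimensional ℝ V]

/-- a form on a plot through `v0` is pulled back from the coordinates -/
theorem Ret.val (C : Ret D v0) (w : Form D) {u : V → X} {x : V} (hu : D.At u x)
    (h0 : u x = v0) : w.val u x = pull (fderiv ℝ (C.G ∘ u) x) (w.val C.κ (C.G v0)) := by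
  have h1 : (C.G ∘ u) x = C.G v0 := by rw [Function.comp_apply, h0]
  have h2 := w.nat (u := C.κ) (g := C.G ∘ u) (x := x) (by rw [h1]; exact C.at_κ) (C.smG hu h0)
  rw [w.congr hu (C.eq hu h0), h2, h1]

/-- **the kernel lemma**: a form vanishes on the velocity of a curve on which the plot is
constant -/
theorem Ret.kernel (C : Ret D v0) (w : Form D) {u : V → X} {x : V} (hu : D.At u x)
    (h0 : u x = v0) {γ : ℝ → V} {γ' : V} (hγ : HasDerivAt γ γ' 0) (hx : γ 0 = x)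
    (hc : ∀ᶠ t in 𝓝 (0 : ℝ), u (γ t) = v0) : iprod γ' (w.val u x) = 0 := by
  rw [C.val w hu h0, pull_iprod]
  have h1 : fderiv ℝ (C.G ∘ u) x γ' = 0 := by
    have h2 : HasFDerivAt (C.G ∘ u) (fderiv ℝ (C.G ∘ u) x) (γ 0) := by
      rw [hx]
      exact (C.smG hu h0).differentiableAt.hasFDerivAt
    have h3 := h2.comp_hasDerivAt 0 hγ
    have h4 : (C.G ∘ u) ∘ γ =ᶠ[𝓝 (0 : ℝ)] fun _ => C.G v0 := by
      filter_upwards [hc] with t ht
      change C.G (u (γ t)) = C.G v0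
      rw [ht]
    exact h3.unique ((hasDerivAt_const _ _).congr_of_eventuallyEq h4)
  rw [h1, Q.iprod_zero_left, map_zero]

end Abs

variable {E : Type*} [NormedAddCommGroup E] [NormedSpace ℝ E]
  {M : Type*} [MetricSpace M] [ChartedSpace E M]
  [RiemannianBundle (fun x : M => TangentSpace 𝓘(ℝ, E) x)]
  {e : ∀ x : M, TangentSpace 𝓘(ℝ, E) x → M}
  [FiniteDimensional ℝ E] [IsManifold 𝓘(ℝ, E) ∞ M]
  [IsContMDiffRiemannianBundle 𝓘(ℝ, E) ∞ E (fun x : M => TangentSpace 𝓘(ℝ, E) x)]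

open Classical in
/-- local charts of the unit tangent bundle -/
theorem exists_ret (v0 : UT E M) : Nonempty (Ret (dUT E M) v0) := by
  set x₀ : M := foot v0 with hx₀
  have hsrc0 : x₀ ∈ (extChartAt 𝓘(ℝ, E) x₀).source := mem_extChartAt_source x₀
  let φ : (E × E) ≃L[ℝ] EuclideanSpace ℝ (Fin (finrank ℝ (E × E))) :=
    ContinuousLinearEquiv.ofFinrankEq (by rw [finrank_euclideanSpace, Fintype.card_fin])
  let G0 : UT E M → E × E := fun v => (extChartAt 𝓘(ℝ, E) x₀ v.1.1, crd x₀ v.1.1 v.1.2)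
  let W : (E × E) → TangentBundle 𝓘(ℝ, E) M := fun q =>
    ⟨(extChartAt 𝓘(ℝ, E) x₀).symm q.1,
      ‖vec x₀ ((extChartAt 𝓘(ℝ, E) x₀).symm q.1) q.2‖⁻¹ •
        vec x₀ ((extChartAt 𝓘(ℝ, E) x₀).symm q.1) q.2⟩
  let c : EuclideanSpace ℝ (Fin (finrank ℝ (E × E))) → UT E M := fun z =>
    if h : nm (E := E) (W (φ.symm z)).proj (W (φ.symm z)).snd = 1 then ⟨W (φ.symm z), h⟩ else v0
  have hn1 : ∀ v : UT E M, ‖(v.1.2 : TangentSpace 𝓘(ℝ, E) v.1.1)‖ = 1 := fun v => v.2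
  have hsm : ∀ {V : Type} [NormedAddCommGroup V] [NormedSpace ℝ V] [FiniteDimensional ℝ V]
    {u : V → UT E M} {x : V}, (dUT E M).At u x → u x = v0 →
      (∀ᶠ s in 𝓝 x, foot (u s) ∈ (extChartAt 𝓘(ℝ, E) x₀).source) ∧ Sm (G0 ∘ u) x := by
    intro V _ _ _ u x hu h0
    have hu' : ∀ᶠ s in 𝓝 x, SmV (fun s => (u s).1.1) (fun s => (u s).1.2) s := hu
    have hux : SmV (fun s => (u s).1.1) (fun s => (u s).1.2) x := hu'.self_of_nhds
    have hsrcx : (u x).1.1 ∈ (extChartAt 𝓘(ℝ, E) x₀).source := by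
      rw [h0]
      exact hsrc0
    have hsrc : ∀ᶠ s in 𝓝 x, (u s).1.1 ∈ (extChartAt 𝓘(ℝ, E) x₀).source :=
      hux.base.continuousAt.eventually ((isOpen_extChartAt_source (I := 𝓘(ℝ, E)) x₀).mem_nhds hsrcx)
    refine ⟨hsrc, ?_⟩
    have h1 : Sm (fun s => extChartAt 𝓘(ℝ, E) x₀ (u s).1.1) x := by
      filter_upwards [hu', hsrc] with s h1 h2
      exact ((contMDiffAt_extChartAt' (exm_mem_source h2)).comp s h1.base).contDiffAt
    have h2 : Sm (fun s => crd x₀ (u s).1.1 (u s).1.2) x := by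
      filter_upwards [hu', hsrc] with s h1 h2
      exact ((smV_iff (f := fun s => (u s).1.1) (u := fun s => (u s).1.2) x₀ h2).1 h1).2
    exact h1.prodMk h2
  have hWG : ∀ v : UT E M, foot v ∈ (extChartAt 𝓘(ℝ, E) x₀).source → W (G0 v) = v.1 := by
    intro v hv
    have h1 : (extChartAt 𝓘(ℝ, E) x₀).symm (G0 v).1 = v.1.1 :=
      (extChartAt 𝓘(ℝ, E) x₀).left_inv hv
    have h2 : vec x₀ v.1.1 (crd x₀ v.1.1 v.1.2) = v.1.2 := vec_crd x₀ hv v.1.2
    have h3 : ∀ y : M, y = v.1.1 →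
        (⟨y, ‖vec x₀ y (G0 v).2‖⁻¹ • vec x₀ y (G0 v).2⟩ : TangentBundle 𝓘(ℝ, E) M) = v.1 := by
      rintro y rfl
      change (⟨v.1.1, ‖vec x₀ v.1.1 (crd x₀ v.1.1 v.1.2)‖⁻¹ •
        vec x₀ v.1.1 (crd x₀ v.1.1 v.1.2)⟩ : TangentBundle 𝓘(ℝ, E) M) = v.1
      rw [h2, hn1, inv_one, one_smul]
    exact h3 _ h1
  refine ⟨⟨finrank ℝ (E × E), c, fun v => φ (G0 v), ?_, ?_, ?_⟩⟩
  · -- the parametrisation is a plot
    have hG1 : (G0 v0).1 ∈ (extChartAt 𝓘(ℝ, E) x₀).target :=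
      (extChartAt 𝓘(ℝ, E) x₀).map_source hsrc0
    have hG2 : vec x₀ ((extChartAt 𝓘(ℝ, E) x₀).symm (G0 v0).1) (G0 v0).2 ≠ 0 := by
      intro h
      have h1 := congrArg (fun q : TangentBundle 𝓘(ℝ, E) M => ‖(q.2 : TangentSpace 𝓘(ℝ, E) q.1)‖)
        (hWG v0 hsrc0)
      simp only [W] at h1
      rw [h, smul_zero, norm_zero, hn1] at h1
      exact zero_ne_one h1
    have htgt : ∀ᶠ q in 𝓝 (G0 v0), q.1 ∈ (extChartAt 𝓘(ℝ, E) x₀).target := by
      have h1 : Tendsto (Prod.fst : E × E → E) (𝓝 (G0 v0)) (𝓝 (G0 v0).1) :=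
        continuous_fst.continuousAt
      exact h1 (extChartAt_target_mem_nhds' hG1)
    have hsmv : ∀ᶠ q in 𝓝 (G0 v0), SmV (fun q : E × E => (extChartAt 𝓘(ℝ, E) x₀).symm q.1)
        (fun q => vec x₀ ((extChartAt 𝓘(ℝ, E) x₀).symm q.1) q.2) q := by
      filter_upwards [htgt] with q hq
      refine smV_vec (V := E × E) (f := fun q : E × E => (extChartAt 𝓘(ℝ, E) x₀).symm q.1) x₀
        ((extChartAt 𝓘(ℝ, E) x₀).map_target hq) ?_ ?_
      · have h4 : ContMDiffAt 𝓘(ℝ, E) 𝓘(ℝ, E) ∞ (extChartAt 𝓘(ℝ, E) x₀).symm q.1 :=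
          (contMDiffOn_extChartAt_symm x₀).contMDiffAt
            ((isOpen_extChartAt_target x₀).mem_nhds hq)
        exact h4.comp q contDiffAt_fst.contMDiffAt
      · exact contDiffAt_snd
    have hne2 : ∀ᶠ q in 𝓝 (G0 v0), q.2 ≠ 0 := by
      refine continuous_snd.continuousAt.eventually_ne ?_
      intro h
      apply hG2
      change vec x₀ ((extChartAt 𝓘(ℝ, E) x₀).symm (G0 v0).1) (G0 v0).2 = 0
      have h' : (G0 v0).2 = 0 := h
      rw [h', map_zero]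
    have hne : ∀ᶠ q in 𝓝 (G0 v0),
        vec x₀ ((extChartAt 𝓘(ℝ, E) x₀).symm q.1) q.2 ≠ 0 := by
      filter_upwards [htgt, hne2] with q hq hq2 h0
      have h2 := crd_vec x₀ ((extChartAt 𝓘(ℝ, E) x₀).map_target hq) q.2
      rw [h0, map_zero] at h2
      exact hq2 h2.symm
    have hW : ∀ᶠ q in 𝓝 (G0 v0),
        ContMDiffAt 𝓘(ℝ, E × E) 𝓘(ℝ, E).tangent ∞ W q ∧
          nm (E := E) (W q).proj (W q).snd = 1 := by
      filter_upwards [hsmv, hne] with q h1 h2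
      refine ⟨WF.smV_normalize h1 h2, ?_⟩
      change ‖‖_‖⁻¹ • _‖ = 1
      rw [norm_smul, norm_inv, norm_norm, inv_mul_cancel₀ (norm_ne_zero_iff.2 h2)]
    have hWz : ∀ᶠ z in 𝓝 (φ (G0 v0)),
        ContMDiffAt 𝓘(ℝ, E × E) 𝓘(ℝ, E).tangent ∞ W (φ.symm z) ∧
          nm (E := E) (W (φ.symm z)).proj (W (φ.symm z)).snd = 1 := by
      have h1 : Tendsto (fun z => φ.symm z) (𝓝 (φ (G0 v0))) (𝓝 (G0 v0)) := by
        have h2 := φ.symm.continuous.continuousAt (x := φ (G0 v0))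
        rw [ContinuousAt, φ.symm_apply_apply] at h2
        exact h2
      exact h1.eventually hW
    have hcz : ∀ᶠ z in 𝓝 (φ (G0 v0)),
        ContMDiffAt 𝓘(ℝ, EuclideanSpace ℝ (Fin (finrank ℝ (E × E))))
          𝓘(ℝ, E).tangent ∞ (fun z => (c z).1) z := by
      filter_upwards [hWz, hWz.eventually_nhds] with z h1 h2
      have h3 : ContMDiffAt 𝓘(ℝ, EuclideanSpace ℝ (Fin (finrank ℝ (E × E))))
          𝓘(ℝ, E).tangent ∞ (fun z => W (φ.symm z)) z :=
        h1.1.comp z (φ.symm.contDiff.contDiffAt.contMDiffAt)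
      refine h3.congr_of_eventuallyEq ?_
      filter_upwards [h2] with z' h4
      exact congrArg Subtype.val (dif_pos h4.2 : c z' = _)
    exact hcz
  · intro V _ _ _ u x hu h0
    exact Sm.comp (f := φ) (Sm.of_contDiff φ.contDiff _) (hsm hu h0).2
  · intro V _ _ _ u x hu h0
    filter_upwards [(hsm hu h0).1] with s hs
    have h1 := hWG (u s) hs
    have h2 : φ.symm (φ (G0 (u s))) = G0 (u s) := φ.symm_apply_apply _
    have h3 : nm (E := E) (W (φ.symm (φ (G0 (u s))))).proj (W (φ.symm (φ (G0 (u s))))).snd = 1 := by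
      rw [h2, h1]
      exact (u s).2
    refine UT.ext' ?_
    have h4 : (c (φ (G0 (u s)))).1 = W (φ.symm (φ (G0 (u s)))) :=
      congrArg Subtype.val (dif_pos h3 : c (φ (G0 (u s))) = _)
    change (u s).1 = (c (φ (G0 (u s)))).1
    rw [h4, h2, h1]

/-- **the kernel lemma** for the unit tangent bundle -/
theorem kernel {V : Type} [NormedAddCommGroup V] [NormedSpace ℝ V] [FiniteDimensional ℝ V]
    (w : Form (dUT E M)) {u : V → UT E M} {x : V} (hu : (dUT E M).At u x) {γ : ℝ → V} {γ' : V}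
    (hγ : HasDerivAt γ γ' 0) (hx : γ 0 = x) (hc : ∀ᶠ t in 𝓝 (0 : ℝ), u (γ t) = u x) :
    iprod γ' (w.val u x) = 0 := by
  obtain ⟨C⟩ := exists_ret (u x)
  exact C.kernel w hu rfl hγ hx hc

end

end Vale.Agent.P231.WG
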