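import Vale.Agent.P231.WG.Cyc
import Vale.Agent.P231.WG.Chart
import Vale.Agent.P231.WG.Ball
import Vale.Agent.P231.WG.Fibre
import Vale.Agent.P231.WR.Sec

/-!
# P231, block G3: Stokes' theorem for the fundamental cycle of the unit tangent bundle
-/

set_option maxSynthPendingDepth 3
set_option linter.unusedSectionVars false
set_option linter.unusedVariables false

open Bundle Manifold Set Filter Module Topology MeasureTheory
open scoped ContDiff Manifold Topology

namespace Vale.Agent.P231.WG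

noncomputable section

open Vale.Agent.P234 Vale.Agent.P231 Vale.Agent.P231.Fm Vale.Agent.P231.W Vale.Agent.P231.H775

variable {E : Type*} [NormedAddCommGroup E] [NormedSpace ℝ E]
  {M : Type*} [MetricSpace M] [ChartedSpace E M]
  [RiemannianBundle (fun x : M => TangentSpace 𝓘(ℝ, E) x)]
  {e : ∀ x : M, TangentSpace 𝓘(ℝ, E) x → M}
  [FiniteDimensional ℝ E] [IsManifold 𝓘(ℝ, E) ∞ M]
  [IsContMDiffRiemannianBundle 𝓘(ℝ, E) ∞ E (fun x : M => TangentSpace 𝓘(ℝ, E) x)]

theorem crd_congr (q : M) {x y : M} (h : x = y) (a : E) : (crd q x (a : E) : E) = crd q y (a : E) := by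
  subst h
  rfl

/-- a smooth vector field along a constant map is a smooth map to the model space -/
theorem contDiffAt_raw {V : Type*} [NormedAddCommGroup V] [NormedSpace ℝ V] {f : V → M}
    {u : V → E} {s : V} (h : SmV f (fun s => (u s : E)) s) (hf : ∀ s', f s' = f s) :
    ContDiffAt ℝ ∞ u s := by
  have h1 := ((smV_iff (f s) (mem_extChartAt_source (f s))).1 h).2
  let L : E →L[ℝ] E := LinearMap.toContinuousLinearMap
    ((vec (f s) (f s)).toLinearMap : E →ₗ[ℝ] E)
  have h2 : ContDiffAt ℝ ∞ (fun s' => L (crd (f s) (f s') (u s' : E))) s :=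
    (L.contDiff.contDiffAt).comp s h1
  refine h2.congr_of_eventuallyEq (Eventually.of_forall fun s' => ?_)
  have h3 := crd_congr (f s) (hf s') (u s')
  have h4 : (vec (f s) (f s) (crd (f s) (f s) (u s' : E)) : E) = u s' :=
    vec_crd (f s) (mem_extChartAt_source (f s)) (u s' : E)
  change u s' = (vec (f s) (f s) (crd (f s) (f s') (u s' : E)) : E)
  rw [h3]
  exact h4.symm

variable {p : M} {R : ℝ}

/-- the curve in the frame over a curve with constant image -/
theorem exists_lift_frame (X : Fr e p R) {c : ℝ → Eu E} (hc : ContDiff ℝ ∞ c)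
    (hcR : ∀ t, ‖c t‖ < R) (hce : ∀ t, ef e p (c t) = ef e p (c 0)) (y : Eu E) :
    ∃ η : ℝ → Eu E, η 0 = y ∧ DifferentiableAt ℝ η 0 ∧
      ∀ᶠ t in 𝓝 0, (X.B (c t) (η t) : E) = X.B (c 0) y := by
  -- the frame along the curve is smooth
  have h1 : ∀ z, ContDiff ℝ ∞ fun t => X.B (c t) z := by
    intro z
    rw [contDiff_iff_contDiffAt]
    intro t
    refine contDiffAt_raw (f := fun t => ef e p (c t)) ?_ fun s' => by
      rw [hce s', hce t]
    have h2 := X.sm (c t) (hcR t) z
    exact SmV.comp (f := fun z : Eu E × Eu E => ef e p z.1) (u := fun z => X.B z.1 z.2)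
      (h := fun t => (c t, z)) (s := t) h2 (hc.contDiffAt.prodMk contDiffAt_const)
  have h2 : ContDiff ℝ ∞ fun t => X.B (c t) := contDiff_clm_apply_iff.2 h1
  -- the inverse
  have hfin : finrank ℝ (Eu E) = finrank ℝ E := by
    rw [finrank_euclideanSpace, Fintype.card_fin]
  have heq : ∀ t, ∃ L : Eu E ≃L[ℝ] E, (L : Eu E →L[ℝ] E) = X.B (c t) := by
    intro t
    refine ⟨(LinearEquiv.ofInjectiveOfFinrankEq (X.B (c t) : Eu E →ₗ[ℝ] E)
      (X.inj _ (hcR t)) hfin).toContinuousLinearEquiv, ?_⟩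
    ext z
    rfl
  obtain ⟨L, hL⟩ := heq 0
  have h3 : ContDiffAt ℝ ∞ (fun t => ContinuousLinearMap.inverse (X.B (c t))) 0 := by
    have h4 : ContDiffAt ℝ ∞ ContinuousLinearMap.inverse (X.B (c 0)) := by
      rw [← hL]
      exact contDiffAt_map_inverse L
    exact h4.comp (0 : ℝ) h2.contDiffAt
  refine ⟨fun t => ContinuousLinearMap.inverse (X.B (c t)) (X.B (c 0) y), ?_, ?_, ?_⟩
  · simp only
    rw [← hL, ContinuousLinearMap.inverse_equiv]
    exact L.symm_apply_apply y
  · exact (h3.clm_apply contDiffAt_const).differentiableAt (by simp)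
  · refine Eventually.of_forall fun t => ?_
    obtain ⟨L', hL'⟩ := heq t
    simp only
    rw [← hL', ContinuousLinearMap.inverse_equiv]
    exact L'.apply_symm_apply _

theorem mk_cc_congr (X : Fr e p R) (v0 : UT E M) {z z' : Eu E × Eu E} (h1 : ‖z.1‖ < R)
    (h2 : z.2 ≠ 0) (h1' : ‖z'.1‖ < R) (h2' : z'.2 ≠ 0) (hf : ef e p z.1 = ef e p z'.1)
    (hB : (X.B z.1 z.2 : E) = X.B z'.1 z'.2) : cc X v0 z = cc X v0 z' := by
  rw [cc_eq X v0 h1 h2, cc_eq X v0 h1' h2']
  have h3 : X.nr z = X.nr z' := by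
    change nm (ef e p z.1) (X.B z.1 z.2) = nm (ef e p z'.1) (X.B z'.1 z'.2)
    rw [hB, hf]
  refine mk_congr hf ?_
  rw [h3, hB]

/-- the radial kernel vector -/
theorem iprod_radial (X : Fr e p R) (v0 : UT E M) (w : Form (dUT E M)) {x y : Eu E}
    (hx : ‖x‖ < R) (hy : y ≠ 0) : iprod ((0, y) : Eu E × Eu E) (w.val (cc X v0) (x, y)) = 0 := by
  have hγ : HasDerivAt (fun t : ℝ => ((x, (1 + t) • y) : Eu E × Eu E)) (0, y) 0 := by
    have h1 : HasDerivAt (fun t : ℝ => (1 + t) • y) ((1 : ℝ) • y) 0 :=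
      ((hasDerivAt_id (0 : ℝ)).const_add 1).smul_const y
    rw [one_smul] at h1
    exact (hasDerivAt_const 0 x).prodMk h1
  refine kernel w (u := cc X v0) (x := (x, y)) (at_cc X v0 hx hy) hγ (by simp) ?_
  filter_upwards [Ioi_mem_nhds (show (-1 : ℝ) < 0 by norm_num)] with t ht
  exact cc_smul X v0 (z := (x, y)) hx hy (by linarith [mem_Ioi.1 ht] : 0 < 1 + t)

variable [CompactSpace M] [ConnectedSpace M] [IsRiemannianManifold 𝓘(ℝ, E) M]

/-- the kernel vector on the boundary sphere -/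
theorem exists_kernel (F : Facts e) {D : ℝ} (hD : 0 < D) (hB : InjGE e D)
    (hdiam : ∀ p q : M, dist p q ≤ D)
    (hP : ∀ x y : M, dist x y = D → 2 ≤ finrank ℝ (H775.Pl e D x y))
    (X : Fr e p R) (v0 : UT E M) (hDR : D < R) {x : Eu E} (hx : ‖x‖ = D) :
    ∃ κ : Eu E, κ ≠ 0 ∧ inner ℝ x κ = (0 : ℝ) ∧ ∀ y, y ≠ 0 → ∃ z, ∀ w : Form (dUT E M),
      iprod ((κ, z) : Eu E × Eu E) (w.val (cc X v0) (x, y)) = 0 := by
  have hn : nm p (D⁻¹ • fr p x : E) = 1 := by
    have h1 := nm_smul (E := E) p (fr p x) D⁻¹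
    rw [nm_fr, hx, abs_of_pos (inv_pos.2 hD), inv_mul_cancel₀ hD.ne'] at h1
    exact h1
  set v : UT E M := mk p (D⁻¹ • fr p x : E) hn with hv
  obtain ⟨w, hw⟩ := WR.exists_isL F hD hB hdiam hP v
  set a : E := vec' w with ha
  set ζ : Eu E := (fr p).symm a with hζ
  have hfζ : fr p ζ = a := (fr p).apply_symm_apply a
  have hfoot : foot v = p := rfl
  have haa : ip p a a = 1 := hw.ip_self
  have hna : ‖ζ‖ = 1 := by
    have h1 := nm_fr p ζ
    rw [hfζ] at h1
    rw [← h1]
    exact WR.nm_eq_one haa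
  have hxζ : inner ℝ x ζ = (0 : ℝ) := by
    rw [← ip_fr p x ζ, hfζ]
    have h1 : ip p (D⁻¹ • fr p x : E) a = 0 := hw.orth
    rw [WR.ip_smul_left'] at h1
    exact (mul_eq_zero.1 h1).resolve_left (inv_ne_zero hD.ne')
  -- the curve
  set c : ℝ → Eu E := fun t => Real.cos t • x + Real.sin t • (D • ζ) with hc
  have hcs : ContDiff ℝ ∞ c :=
    (Real.contDiff_cos.smul contDiff_const).add (Real.contDiff_sin.smul contDiff_const)
  have hcn : ∀ t, ‖c t‖ = D := by
    intro t
    have h1 : ‖c t‖ ^ 2 = D ^ 2 := by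
      rw [← real_inner_self_eq_norm_sq]
      simp only [hc, inner_add_left, inner_add_right, inner_smul_left, inner_smul_right,
        real_inner_self_eq_norm_sq, real_inner_comm x ζ, hxζ, hx, hna, conj_trivial]
      have := Real.sin_sq_add_cos_sq t
      linear_combination (D ^ 2) * this
    exact (sq_eq_sq₀ (norm_nonneg _) hD.le).1 h1
  have hc0 : c 0 = x := by simp [hc]
  have hce' : ∀ t, ef e p (c t) = bar e D v := by
    intro t
    have h1 := hw.comb F hD hB hdiam (a := Real.cos t) (b := Real.sin t)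
      (by linarith [Real.sin_sq_add_cos_sq t])
    have h2 : e p (D • (Real.cos t • (D⁻¹ • fr p x) + Real.sin t • a) : E) = bar e D v := h1.2
    have h3 : (fr p (c t) : E) = D • (Real.cos t • (D⁻¹ • fr p x) + Real.sin t • a) := by
      simp only [hc]
      rw [map_add, map_smul, map_smul, map_smul, hfζ, smul_add, smul_smul, smul_smul, smul_smul,
        smul_smul]
      congr 2
      · field_simp
      · ring
    rw [ef, h3]
    exact h2
  have hcd : HasDerivAt c (D • ζ) 0 := by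
    have h1 := ((Real.hasDerivAt_cos 0).smul_const x).add
      ((Real.hasDerivAt_sin 0).smul_const (D • ζ))
    rw [Real.sin_zero, Real.cos_zero, neg_zero, zero_smul, zero_add, one_smul] at h1
    exact h1
  refine ⟨D • ζ, ?_, ?_, fun y hy => ?_⟩
  · refine smul_ne_zero hD.ne' fun h => ?_
    rw [h, norm_zero] at hna
    exact zero_ne_one hna
  · rw [inner_smul_right, hxζ, mul_zero]
  · obtain ⟨η, h0, h1, h2⟩ := exists_lift_frame X hcs (fun t => by rw [hcn]; exact hDR)
      (fun t => by rw [hce', hce']) y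
    refine ⟨deriv η 0, fun w => ?_⟩
    have hγ : HasDerivAt (fun t : ℝ => ((c t, η t) : Eu E × Eu E)) (D • ζ, deriv η 0) 0 :=
      hcd.prodMk h1.hasDerivAt
    have hxR : ‖x‖ < R := by rw [hx]; exact hDR
    refine kernel w (u := cc X v0) (x := (x, y)) (at_cc X v0 hxR hy) hγ
      (by rw [hc0, h0]) ?_
    have h3 : ∀ᶠ t in 𝓝 (0 : ℝ), η t ≠ 0 := h1.continuousAt.eventually_ne (by rw [h0]; exact hy)
    filter_upwards [h2, h3] with t ht ht3
    refine mk_cc_congr X v0 (by rw [hcn]; exact hDR) ht3 hxR hy ?_ ?_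
    · change ef e p (c t) = ef e p x
      rw [hce', ← hc0, hce']
    · rw [← hc0]
      exact ht

/-- **Stokes' theorem for the fundamental cycle** -/
theorem II_d (F : Facts e) {D : ℝ} (hD : 0 < D) (hB : InjGE e D)
    (hdiam : ∀ p q : M, dist p q ≤ D)
    (hP : ∀ x y : M, dist x y = D → 2 ≤ finrank ℝ (H775.Pl e D x y))
    (X : Fr e p R) (v0 : UT E M) {k : ℕ} (b : Basis (Fin k) ℝ (Eu E)) {r : Eu E → ℝ}
    {K : Set (Eu E)} (hr : Q.Cut r K) (hDR : D < R) (w : Form (dUT E M)) :
    II X v0 b hr hDR w.d = 0 := by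
  have hval : ∀ x ∈ Metric.ball (0 : Eu E) R, th X v0 b r w.d x =
      -((-1 : ℝ) ^ k • extd (th X v0 b r w) x) := by
    intro x hx
    have h1 : th X v0 b r w.d x = Q.phi volume b r (extd (w.val (cc X v0))) x :=
      Q.phi_congr volume b hr fun y hy =>
        Form.d_val w (at_cc X v0 (z := (x, y)) (mem_ball_zero_iff.1 hx) hy)
    rw [h1, Q.phi_extd volume b hr Metric.isOpen_ball (contDiffOn_val X v0 w) hx]
    rfl
  have hst := ball_stokes_of_iprod (V := Eu E) volume b hD (U := Metric.ball 0 R)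
    Metric.isOpen_ball (Metric.closedBall_subset_ball hDR) (Φ := th X v0 b r w)
    ((contDiffOn_th X v0 b hr w).of_le (WithTop.coe_le_coe.2 le_top)) (fun x hx => by
      obtain ⟨κ, h1, h2, h3⟩ := exists_kernel F hD hB hdiam hP X v0 hDR hx
      refine ⟨κ, h1, h2, ?_⟩
      have hxR : ‖x‖ < R := by rw [hx]; exact hDR
      refine iprod_phi_eq_zero volume b hr (fun y hy => iprod_radial X v0 w hxR hy)
        fun y hy => ?_
      obtain ⟨z, hz⟩ := h3 y hy
      exact ⟨z, hz w⟩)
  rw [II_apply]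
  have h4 : ∫ x in Metric.ball (0 : Eu E) D, evalForm (th X v0 b r w.d x) b =
      ∫ x in Metric.ball (0 : Eu E) D, (-((-1 : ℝ) ^ k)) * evalForm (extd (th X v0 b r w) x) b := by
    refine setIntegral_congr_fun measurableSet_ball fun x hx => ?_
    have h5 := hval x (Metric.ball_subset_ball hDR.le hx)
    rw [h5]
    change evalL (b : Fin k → Eu E) (-((-1 : ℝ) ^ k • extd (th X v0 b r w) x)) = _
    rw [map_neg, map_smul, smul_eq_mul, neg_mul]
    rfl
  rw [h4, integral_const_mul, hst, mul_zero]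

end

end Vale.Agent.P231.WG
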