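import Vale.Agent.P231.WG.Cyc
import Vale.Agent.P231.WA.Deg

/-!
# P231, block G: the cycle only sees the part of top degree
-/

set_option maxSynthPendingDepth 3
set_option linter.unusedSectionVars false
set_option linter.unusedVariables false

open Bundle Manifold Set Filter Module Topology MeasureTheory
open scoped ContDiff Manifold Topology

namespace Vale.Agent.P231.WG

noncomputable section

open Vale.Agent.P234 Vale.Agent.P231 Vale.Agent.P231.Fm Vale.Agent.P231.W Vale.Agent.P231.H775 Vale.Agent.P231.WA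

section Lam

variable {V : Type*} [NormedAddCommGroup V] [NormedSpace ℝ V] [FiniteDimensional ℝ V]
variable {F : Type*} [NormedAddCommGroup F] [NormedSpace ℝ F] [FiniteDimensional ℝ F]
  [MeasurableSpace F] [BorelSpace F]

theorem prt_cont {k : ℕ} (j : ℕ) (v : Fin k → V) (w : Lam V) :
    prt j (cont v w) = cont v (prt (j + k) w) := by
  induction k generalizing w with
  | zero => rfl
  | succ k ih => rw [cont_succ, cont_succ, ih, prt_iprod, add_assoc]

theorem prt_slice {k : ℕ} (j : ℕ) (v : Fin k → F) (w : Lam (V × F)) :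
    prt j (slice v w) = slice v (prt (j + k) w) := by
  rw [slice_apply, slice_apply, prt_pull, prt_cont]

theorem prt_ps_mul (j : ℕ) (a : F →L[ℝ] ℝ) (w : Lam (V × F)) :
    prt (j + 1) (Q.ps (dx a) * w) = Q.ps (dx a) * prt j w := by
  rw [Q.ps, pull_dx, prt_succ_dx_mul]

end Lam

variable {E : Type*} [NormedAddCommGroup E] [NormedSpace ℝ E]
  {M : Type*} [MetricSpace M] [ChartedSpace E M]
  [RiemannianBundle (fun x : M => TangentSpace 𝓘(ℝ, E) x)]
  {e : ∀ x : M, TangentSpace 𝓘(ℝ, E) x → M}
  [FiniteDimensional ℝ E] [IsManifold 𝓘(ℝ, E) ∞ M]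
  [IsContMDiffRiemannianBundle 𝓘(ℝ, E) ∞ E (fun x : M => TangentSpace 𝓘(ℝ, E) x)]

variable {p : M} {R : ℝ} {k : ℕ} (X : Fr e p R) (v0 : UT E M) (b : Basis (Fin k) ℝ (Eu E))
  {r : Eu E → ℝ} {K : Set (Eu E)} (hr : Q.Cut r K)

include hr in
theorem th_part (m : ℕ) (hm : m + 1 = k + k) (w : Form (dUT E M)) {x : Eu E}
    (hx : x ∈ Metric.ball 0 R) :
    th X v0 b r (Form.part m w) x = prt k (th X v0 b r w x) := by
  have h1 := Q.integrable_slice volume b hr Metric.isOpen_ball (contDiffOn_val X v0 w) hx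
  have h2 := ContinuousLinearMap.integral_comp_comm (prtL (E := Eu E) k) h1
  refine Eq.trans ?_ h2
  refine integral_congr_ae (Eventually.of_forall fun y => ?_)
  change slice b (Q.ps (dx (fderiv ℝ r y)) * prt m _) =
    prt k (slice b (Q.ps (dx (fderiv ℝ r y)) * _))
  rw [prt_slice, ← hm, prt_ps_mul]

/-- the cycle only sees the part of degree `2 N + 1` -/
theorem II_part {D : ℝ} (hDR : D < R) {N : ℕ} (hk : k = N + 1) (w : Form (dUT E M)) :
    II X v0 b hr hDR w = II X v0 b hr hDR (Form.part (2 * N + 1) w) := by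
  rw [II_apply, II_apply]
  refine setIntegral_congr_fun measurableSet_ball fun x hx => ?_
  have h := th_part X v0 b hr (2 * N + 1) (by omega) w (Metric.ball_subset_ball hDR.le hx)
  rw [h, evalForm_prt]

end

end Vale.Agent.P231.WG
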