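import Vale.Agent.P231.WA.Deg
import Vale.Agent.P231.WF.Deg
import Vale.Agent.P231.W.Abs

/-!
# P231, block G4: basic forms of top degree vanish
-/

set_option linter.unusedSectionVars false
set_option linter.unusedVariables false

open MeasureTheory Set Module Filter Topology
open scoped ContDiff

namespace Vale.Agent.P231.WG

open Vale.Agent.P231.Fm Vale.Agent.P231.W Vale.Agent.P231.WA

noncomputable section

section Alg

variable {E : Type*} [NormedAddCommGroup E] [NormedSpace ℝ E] [FiniteDimensional ℝ E]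

theorem iprod_zero_vec (w : Lam E) : iprod (0 : E) w = 0 := by
  have := iprod_smul (0 : ℝ) (0 : E) w
  rwa [zero_smul, zero_smul] at this

/-- a form of top degree killed by a nonzero vector vanishes -/
theorem top_eq_zero {m : ℕ} (hm : finrank ℝ E ≤ m) {w : Lam E} (hw : prt m w = w) {Y : E}
    (hY : Y ≠ 0) (h : iprod Y w = 0) : w = 0 := by
  obtain ⟨a, ha⟩ := SeparatingDual.exists_eq_one (R := ℝ) hY
  have h1 : dx a * w = 0 := by
    have h2 := prt_succ_dx_mul m a w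
    rw [hw] at h2
    rw [← h2]
    exact prt_eq_zero (by omega) _
  have h3 := iprod_dx_mul Y a w
  rw [h1, h, map_zero, ha, one_smul, mul_zero, sub_zero] at h3
  exact h3.symm

/-- the pullback of a form of top degree under a non-injective map vanishes -/
theorem pull_top_eq_zero {F : Type*} [NormedAddCommGroup F] [NormedSpace ℝ F]
    [FiniteDimensional ℝ F] {m : ℕ} (hm : finrank ℝ E ≤ m) {w : Lam F} (hw : prt m w = w)
    (L : E →L[ℝ] F) {Y : E} (hY : Y ≠ 0) (hL : L Y = 0) : pull L w = 0 := by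
  refine top_eq_zero hm ?_ hY ?_
  · rw [prt_pull, hw]
  · rw [pull_iprod, hL, iprod_zero_vec, map_zero]

end Alg

/-- the flow `Φ` has nonvanishing velocity at `v`, tested by a function `f` -/
def Moves {X : Type*} (D : Dif X) (Φ : X × ℝ → X) (v : X) : Prop :=
  ∃ f : X → ℝ, (∀ {E : Type} [NormedAddCommGroup E] [NormedSpace ℝ E] [FiniteDimensional ℝ E]
    {u : E → X} {x : E}, D.At u x → u x = v → DifferentiableAt ℝ (fun y => f (u y)) x) ∧
    ∃ a : ℝ, a ≠ 0 ∧ HasDerivAt (fun s => f (Φ (v, s))) a 0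

/-- **basic forms of top degree vanish** -/
theorem basic_top_eq_zero {X : Type*} {D : Dif X} {m : ℕ} (hD : WF.DimEq D m) {Φ : X × ℝ → X}
    (hΦ : (D.prod (Dif.lin ℝ)).Map D Φ) (h0 : ∀ v, Φ (v, 0) = v) (hmv : ∀ v, Moves D Φ v)
    {w : Form D} (hw : Form.IsDeg m w) (hb : Basic Φ hΦ w) : w = 0 := by
  have hdeg : ∀ {E : Type} [NormedAddCommGroup E] [NormedSpace ℝ E] [FiniteDimensional ℝ E]
      (u : E → X) (x : E), prt m (w.val u x) = w.val u x := by
    intro E _ _ _ u x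
    conv_rhs => rw [← hw.part_eq]
    rfl
  have hfin : finrank ℝ (EuclideanSpace ℝ (Fin m)) ≤ m := by
    rw [finrank_euclideanSpace, Fintype.card_fin]
  -- it is enough to consider plots of `ℝ^m`
  suffices H : ∀ (κ : EuclideanSpace ℝ (Fin m) → X) (y0 : EuclideanSpace ℝ (Fin m)),
      D.At κ y0 → w.val κ y0 = 0 by
    refine Form.ext_val fun E _ _ _ u x h => ?_
    obtain ⟨c, g, hg, hc, hu⟩ := hD h
    rw [w.congr h hu, w.nat hc hg, H c (g x) hc, map_zero, Form.zero_val]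
  intro κ y0 hκ
  have hcyl := Form.cyl_at hκ (0 : ℝ)
  have hplot : D.At (Φ ∘ Form.cyl κ) (y0, (0 : ℝ)) := hΦ hcyl
  obtain ⟨c, g, hg, hc, hu⟩ := hD hplot
  set A := fderiv ℝ g (y0, (0 : ℝ)) with hA
  set W' := w.val c (g (y0, 0)) with hW'
  have e1 : pull A W' = pull (ContinuousLinearMap.fst ℝ (EuclideanSpace ℝ (Fin m)) ℝ)
      (w.val κ y0) := by
    have h1 := congrArg (fun a : Form (D.prod (Dif.lin ℝ)) => a.val (Form.cyl κ) (y0, (0 : ℝ))) hb
    simp only [pr] at h1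
    rw [Form.pull_val hΦ _ hcyl, Form.pull_val Dif.map_fst _ hcyl, w.congr hplot hu,
      w.nat hc hg] at h1
    rw [h1]
    have h2 : (Prod.fst : X × ℝ → X) ∘ Form.cyl κ = κ ∘ Prod.fst := rfl
    have h3 : Sm (Prod.fst : EuclideanSpace ℝ (Fin m) × ℝ → EuclideanSpace ℝ (Fin m))
        (y0, (0 : ℝ)) := Sm.of_contDiff contDiff_fst _
    rw [h2, w.nat (g := Prod.fst) hκ h3]
    congr 2
    exact fderiv_fst
  have hY1 : (ContinuousLinearMap.fst ℝ (EuclideanSpace ℝ (Fin m)) ℝ)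
      ((0, 1) : EuclideanSpace ℝ (Fin m) × ℝ) = 0 := rfl
  set L := A ∘L ContinuousLinearMap.inl ℝ (EuclideanSpace ℝ (Fin m)) ℝ with hL
  have e2 : w.val κ y0 = pull L W' := by
    rw [hL, pull_comp_apply, e1, ← pull_comp_apply]
    have h1 : (ContinuousLinearMap.fst ℝ (EuclideanSpace ℝ (Fin m)) ℝ) ∘L
        ContinuousLinearMap.inl ℝ (EuclideanSpace ℝ (Fin m)) ℝ =
        ContinuousLinearMap.id ℝ (EuclideanSpace ℝ (Fin m)) := by
      ext x; rfl
    rw [h1, pull_id]
    rfl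
  have e3 : pull A (iprod (A (0, 1)) W') = 0 := by
    rw [← pull_iprod, e1, pull_iprod, hY1, iprod_zero_vec, map_zero]
  by_cases hinj : ∃ Y, Y ≠ 0 ∧ L Y = 0
  · obtain ⟨Y, hY, hLY⟩ := hinj
    rw [e2]
    exact pull_top_eq_zero hfin (hdeg _ _) L hY hLY
  · push Not at hinj
    have hi : Function.Injective (L : EuclideanSpace ℝ (Fin m) →ₗ[ℝ] EuclideanSpace ℝ (Fin m)) := by
      refine (injective_iff_map_eq_zero _).2 fun Y hY => ?_
      by_contra h
      exact hinj Y h hY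
    let R : EuclideanSpace ℝ (Fin m) →L[ℝ] EuclideanSpace ℝ (Fin m) :=
      LinearMap.toContinuousLinearMap (LinearEquiv.ofInjectiveEndo
        (L : EuclideanSpace ℝ (Fin m) →ₗ[ℝ] EuclideanSpace ℝ (Fin m)) hi).symm.toLinearMap
    have hR : A ∘L (ContinuousLinearMap.inl ℝ (EuclideanSpace ℝ (Fin m)) ℝ ∘L R) =
        ContinuousLinearMap.id ℝ (EuclideanSpace ℝ (Fin m)) := by
      ext1 x
      exact (LinearEquiv.ofInjectiveEndo
        (L : EuclideanSpace ℝ (Fin m) →ₗ[ℝ] EuclideanSpace ℝ (Fin m)) hi).apply_symm_apply x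
    have e4 : iprod (A (0, 1)) W' = 0 := by
      have h1 := pull_comp_apply (ContinuousLinearMap.inl ℝ (EuclideanSpace ℝ (Fin m)) ℝ ∘L R) A
        (iprod (A (0, 1)) W')
      rw [hR, e3, map_zero, pull_id] at h1
      exact h1
    have hY : A (0, 1) ≠ 0 := by
      intro hY0
      obtain ⟨f, hf, a, ha, hfa⟩ := hmv (κ y0)
      have hpt : c (g (y0, 0)) = κ y0 := by
        have h1 : Φ (κ y0, 0) = c (g (y0, 0)) := hu.self_of_nhds
        rw [← h1, h0]
      have hd1 : DifferentiableAt ℝ (fun z => f (c z)) (g (y0, 0)) := hf hc hpt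
      have hd2 : HasFDerivAt g A (y0, (0 : ℝ)) := hg.differentiableAt.hasFDerivAt
      have hd3 : HasDerivAt (fun s : ℝ => ((y0, s) : EuclideanSpace ℝ (Fin m) × ℝ)) (0, 1) 0 :=
        (hasDerivAt_const (0 : ℝ) y0).prodMk (hasDerivAt_id (0 : ℝ))
      have hd4 : HasDerivAt (fun s : ℝ => g (y0, s)) (A (0, 1)) 0 :=
        HasFDerivAt.comp_hasDerivAt (f := fun s : ℝ => ((y0, s) : EuclideanSpace ℝ (Fin m) × ℝ))
          (0 : ℝ) hd2 hd3
      have hd5 : HasDerivAt (fun s : ℝ => f (c (g (y0, s))))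
          (fderiv ℝ (fun z => f (c z)) (g (y0, 0)) (A (0, 1))) 0 :=
        HasFDerivAt.comp_hasDerivAt (f := fun s : ℝ => g (y0, s)) (0 : ℝ) hd1.hasFDerivAt hd4
      rw [hY0, map_zero] at hd5
      have ht : Tendsto (fun s : ℝ => ((y0, s) : EuclideanSpace ℝ (Fin m) × ℝ)) (𝓝 0)
          (𝓝 (y0, 0)) := hd3.continuousAt
      have heq : (fun s => f (Φ (κ y0, s))) =ᶠ[𝓝 0] fun s : ℝ => f (c (g (y0, s))) := by
        filter_upwards [ht.eventually hu] with s hs
        exact congrArg f hs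
      exact ha (hfa.unique (hd5.congr_of_eventuallyEq heq))
    have hz : W' = 0 := top_eq_zero hfin (hdeg _ _) hY e4
    rw [e2, hz, map_zero]

end

end Vale.Agent.P231.WG
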