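import Vale.Agent.P231.H775.SmV

/-!
# P231, block G1: a smooth frame of `TM` along the exponential map of a point
-/

set_option maxSynthPendingDepth 3
set_option linter.unusedSectionVars false

open Bundle Manifold Set Filter Module
open scoped ContDiff Manifold Topology

namespace Vale.Agent.P231.WG

open Vale.Agent.P234 Vale.Agent.P231 Vale.Agent.P231.H775

noncomputable section

/-- smooth maps to the tangent bundle of a vector space -/
theorem contMDiff_mk' {S W : Type*} [NormedAddCommGroup S] [NormedSpace ℝ S]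
    [NormedAddCommGroup W] [NormedSpace ℝ W] {c d : S → W}
    (hc : ContDiff ℝ ∞ c) (hd : ContDiff ℝ ∞ d) :
    ContMDiff 𝓘(ℝ, S) 𝓘(ℝ, W).tangent ∞ (fun s : S => (⟨c s, d s⟩ : TangentBundle 𝓘(ℝ, W) W)) := by
  intro t
  rw [Bundle.contMDiffAt_totalSpace]
  refine ⟨hc.contMDiff.contMDiffAt, ?_⟩
  refine (hd.contMDiff.contMDiffAt (x := t)).congr_of_eventuallyEq
    (Filter.Eventually.of_forall fun w => ?_)
  simp

variable {E : Type*} [NormedAddCommGroup E] [NormedSpace ℝ E] [FiniteDimensional ℝ E]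
  {M : Type*} [MetricSpace M] [ChartedSpace E M] [IsManifold 𝓘(ℝ, E) ∞ M]
  [RiemannianBundle (fun x : M => TangentSpace 𝓘(ℝ, E) x)]
  [IsContMDiffRiemannianBundle 𝓘(ℝ, E) ∞ E (fun x : M => TangentSpace 𝓘(ℝ, E) x)]
  {e : ∀ x : M, TangentSpace 𝓘(ℝ, E) x → M}
  {S : Type*} [NormedAddCommGroup S] [NormedSpace ℝ S]

/-- the differential of the exponential map along smooth maps -/
theorem contMDiff_dE' (he : IsExp e) {x : S → M} {v w : S → E}
    (hv : ContMDiff 𝓘(ℝ, S) 𝓘(ℝ, E).tangent ∞ (fun s => tb (x s) (v s)))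
    (hw : ContMDiff 𝓘(ℝ, S) 𝓘(ℝ, E).tangent ∞ (fun s => tb (x s) (w s))) :
    ContMDiff 𝓘(ℝ, S) 𝓘(ℝ, E).tangent ∞
      (fun s => tb (e (x s) (v s)) (dE e (x s) (v s) (w s))) := by
  let v' : ∀ s, TangentSpace 𝓘(ℝ, E) (x s) := fun s => v s
  let w' : ∀ s, TangentSpace 𝓘(ℝ, E) (x s) := fun s => w s
  let G : S × ℝ → M := fun q => e (x q.1) (v' q.1 + q.2 • w' q.1)
  have hG : ContMDiff 𝓘(ℝ, S × ℝ) 𝓘(ℝ, E) ∞ G := by
    intro q
    have h1 : SmV (fun q : S × ℝ => x q.1) (fun q => v' q.1) q :=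
      SmV.comp (f := x) (u := v') (h := fun q : S × ℝ => q.1) (hv q.1) contDiffAt_fst
    have h2 : SmV (fun q : S × ℝ => x q.1) (fun q => w' q.1) q :=
      SmV.comp (f := x) (u := w') (h := fun q : S × ℝ => q.1) (hw q.1) contDiffAt_fst
    exact (h1.add (h2.smul (c := fun q : S × ℝ => q.2) contDiffAt_snd)).exp he
  have hT : ContMDiff 𝓘(ℝ, S × ℝ).tangent 𝓘(ℝ, E).tangent ∞
      (tangentMap 𝓘(ℝ, S × ℝ) 𝓘(ℝ, E) G) := hG.contMDiff_tangentMap (by simp)
  have hm := contMDiff_mk' (c := fun s : S => ((s, 0) : S × ℝ)) (d := fun _ => ((0, 1) : S × ℝ))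
    (contDiff_id.prodMk contDiff_const) contDiff_const
  refine (hT.comp hm).congr fun s => ?_
  have hG0 : G (s, 0) = e (x s) (v s) := by
    simp only [G, zero_smul, add_zero]
    rfl
  have hd : (mfderiv 𝓘(ℝ, S × ℝ) 𝓘(ℝ, E) G (s, 0) ((0, 1) : S × ℝ) : E)
      = dE e (x s) (v s) (w s) := by
    have h1 : MDifferentiableAt 𝓘(ℝ, S × ℝ) 𝓘(ℝ, E) G (s, (0 : ℝ)) :=
      hG.contMDiffAt.mdifferentiableAt (by simp)
    have h2 : HasFDerivAt (fun t : ℝ => ((s, t) : S × ℝ)) (ContinuousLinearMap.inr ℝ S ℝ) (0 : ℝ) :=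
      hasFDerivAt_prodMk_right s 0
    have h3 : MDifferentiableAt 𝓘(ℝ, ℝ) 𝓘(ℝ, S × ℝ) (fun t : ℝ => ((s, t) : S × ℝ)) 0 :=
      h2.differentiableAt.mdifferentiableAt
    have h4 := mfderiv_comp_apply (0 : ℝ) (I'' := 𝓘(ℝ, E))
      (g := G) (f := fun t : ℝ => ((s, t) : S × ℝ)) h1 h3 (1 : ℝ)
    have h5 : mfderiv 𝓘(ℝ, ℝ) 𝓘(ℝ, S × ℝ) (fun t : ℝ => ((s, t) : S × ℝ)) 0 (1 : ℝ)
        = ((0, 1) : S × ℝ) := by
      rw [mfderiv_eq_fderiv, h2.fderiv]
      rfl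
    rw [h5] at h4
    have h6 := Jac.mfderiv_line he (x s) (v' s) (w' s)
    exact h4.symm.trans h6
  exact (Jac.tb_congr (E := E) (M := M) hG0 hd).symm

variable [CompactSpace M] [ConnectedSpace M] [IsRiemannianManifold 𝓘(ℝ, E) M]

/-- the points of the chain -/
def chx (e : ∀ x : M, TangentSpace 𝓘(ℝ, E) x → M) (p : M) (m k : ℕ) (ξ : Eu E) : M :=
  gam e p (fr p ξ) ((k : ℝ) / m)

/-- the velocities of the chain -/
def chv (e : ∀ x : M, TangentSpace 𝓘(ℝ, E) x → M) (p : M) (m k : ℕ) (ξ : Eu E) : E :=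
  (1 / (m : ℝ)) • vel e p (fr p ξ) ((k : ℝ) / m)

/-- the chain of differentials -/
def chB (e : ∀ x : M, TangentSpace 𝓘(ℝ, E) x → M) (p : M) (m : ℕ) : ℕ → Eu E → (Eu E →ₗ[ℝ] E)
  | 0, _ => ((fr p : Eu E ≃L[ℝ] E) : Eu E →ₗ[ℝ] E)
  | k + 1, ξ => dEl e (chx e p m k ξ) (chv e p m k ξ) ∘ₗ chB e p m k ξ

theorem contMDiff_fr (p : M) {c : S → Eu E} (hc : ContDiff ℝ ∞ c) :
    ContMDiff 𝓘(ℝ, S) 𝓘(ℝ, E).tangent ∞ (fun s => tb p (fr p (c s))) := by
  intro s
  let w : S → E := fun s => fr (E := E) p (c s)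
  let u : ∀ _ : S, TangentSpace 𝓘(ℝ, E) p := fun s => w s
  refine (smV_iff (f := fun _ : S => p) (u := u) p
    (mem_extChartAt_source p)).2 ⟨contMDiffAt_const, ?_⟩
  let A : E →L[ℝ] E := crd (E := E) p p
  let B : Eu E →L[ℝ] E := A ∘L ((fr p : Eu E ≃L[ℝ] E) : Eu E →L[ℝ] E)
  exact B.contDiff.contDiffAt.comp s hc.contDiffAt

theorem contMDiff_ch (F : Facts e) (p : M) (m k : ℕ) :
    ContMDiff 𝓘(ℝ, Eu E) 𝓘(ℝ, E).tangent ∞ (fun ξ => tb (chx e p m k ξ) (chv e p m k ξ)) := by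
  have h1 : ContMDiff 𝓘(ℝ, Eu E) (𝓘(ℝ, ℝ).prod 𝓘(ℝ, E).tangent) ∞
      (fun ξ : Eu E => ((k : ℝ) / m, tb (E := E) (M := M) p (fr p ξ))) :=
    contMDiff_const.prodMk (contMDiff_fr (c := fun ξ : Eu E => ξ) p contDiff_id)
  have h2 := (contMDiff_flow F).comp h1
  intro ξ
  let w : Eu E → E := fun ξ => vel (E := E) e p (fr (E := E) p ξ) ((k : ℝ) / m)
  let u : ∀ ξ : Eu E, TangentSpace 𝓘(ℝ, E) (chx e p m k ξ) := fun ξ => w ξ
  have h3 : SmV (fun ξ : Eu E => chx e p m k ξ) u ξ := h2 ξ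
  exact h3.smul (c := fun _ => 1 / (m : ℝ)) contDiffAt_const

theorem chx_succ (F : Facts e) (p : M) (m k : ℕ) (ξ : Eu E) :
    e (chx e p m k ξ) (chv (E := E) e p m k ξ : E) = chx e p m (k + 1) ξ := by
  have h1 := gam_flow F p (fr p ξ) ((k : ℝ) / m) (1 / m)
  have h2 : (k : ℝ) / m + 1 / m = ((k + 1 : ℕ) : ℝ) / m := by
    rw [← add_div]; push_cast; rfl
  rw [h2] at h1
  exact h1

theorem chx_zero (F : Facts e) (p : M) (m : ℕ) (ξ : Eu E) : chx e p m 0 ξ = p := by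
  rw [chx, Nat.cast_zero, zero_div]
  exact gam_zero F.isExp _ _

theorem contMDiff_chB (F : Facts e) (p : M) (m k : ℕ) :
    ContMDiff 𝓘(ℝ, Eu E × Eu E) 𝓘(ℝ, E).tangent ∞
      (fun q : Eu E × Eu E => tb (chx e p m k q.1) (chB e p m k q.1 q.2)) := by
  induction k with
  | zero =>
    refine (contMDiff_fr (c := fun q : Eu E × Eu E => q.2) p contDiff_snd).congr fun q => ?_
    exact Jac.tb_congr (chx_zero F p m q.1) rfl
  | succ k ih =>
    have h1 : ContMDiff 𝓘(ℝ, Eu E × Eu E) 𝓘(ℝ, E).tangent ∞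
        (fun q : Eu E × Eu E => tb (chx e p m k q.1) (chv e p m k q.1)) :=
      (contMDiff_ch F p m k).comp contDiff_fst.contMDiff
    refine (contMDiff_dE' F.isExp h1 ih).congr fun q => ?_
    exact Jac.tb_congr (chx_succ F p m k q.1).symm rfl

theorem nm_chv (F : Facts e) (p : M) {m : ℕ} (hm : 0 < m) (k : ℕ) (ξ : Eu E) :
    nm (chx e p m k ξ) (chv e p m k ξ) = ‖ξ‖ / m := by
  have hm' : (0 : ℝ) < m := by exact_mod_cast hm
  rw [chv, nm_smul, chx, nm_vel F, nm_fr, abs_of_pos (by positivity)]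
  ring

theorem chB_injective (F : Facts e) {D : ℝ} (hB : InjGE e D) (p : M) {m : ℕ} (hm : 0 < m)
    {ξ : Eu E} (hξ : ‖ξ‖ / m < D) (k : ℕ) : Function.Injective (chB e p m k ξ) := by
  induction k with
  | zero => exact (fr p : Eu E ≃L[ℝ] E).injective
  | succ k ih =>
    have h1 : Function.Injective (dEl e (chx e p m k ξ) (chv e p m k ξ)) := by
      refine (injective_iff_map_eq_zero _).2 fun w hw => ?_
      exact dE_injective F hB (by rwa [nm_chv F p hm]) hw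
    exact h1.comp ih

theorem chv_zero_vec (p : M) (m k : ℕ) : chv e p m k 0 = 0 := by
  have h1 : vel e p (fr p (0 : Eu E)) ((k : ℝ) / m) = 0 := by
    rw [vel, map_zero]
    exact (dEl e p (((k : ℝ) / m) • (0 : E))).map_zero
  rw [chv, h1, smul_zero]

theorem chx_zero_vec (F : Facts e) (p : M) (m k : ℕ) : chx e p m k 0 = p := by
  have h1 : ((k : ℝ) / m) • fr (E := E) p (0 : Eu E) = 0 := by rw [map_zero, smul_zero]
  rw [chx, gam]
  have h2 : e p (((k : ℝ) / m) • fr (E := E) p (0 : Eu E) : E) = e p (0 : E) :=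
    congrArg (fun w : E => e p w) h1
  exact h2.trans (F.isExp.map_zero p)

theorem dE_congr {x x' : M} {v v' : E} (hx : x = x') (hv : v = v') (w : E) :
    dE e x v w = dE e x' v' w := by
  subst hx hv; rfl

theorem chB_zero_vec (F : Facts e) (p : M) (m k : ℕ) (η : Eu E) :
    chB e p m k 0 η = fr p η := by
  induction k with
  | zero => rfl
  | succ k ih =>
    have h1 : chB e p m (k + 1) 0 η = dE e (chx e p m k 0) (chv e p m k 0) (chB e p m k 0 η) := rfl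
    rw [h1, ih, dE_congr (chx_zero_vec F p m k) (chv_zero_vec p m k)]
    exact dE_zero_base F.isExp p _

/-- **smooth frames along the exponential map** -/
theorem exists_frame (F : Facts e) {D : ℝ} (hD : 0 < D) (hB : InjGE e D) (p : M) (R : ℝ) :
    ∃ B : Eu E → (Eu E →ₗ[ℝ] E),
      ContMDiff 𝓘(ℝ, Eu E × Eu E) 𝓘(ℝ, E).tangent ∞
        (fun q : Eu E × Eu E => tb (M := M) (e p (fr (E := E) p q.1 : E)) (B q.1 q.2)) ∧
      (∀ ξ, ‖ξ‖ < R → Function.Injective (B ξ)) ∧ (∀ η, B 0 η = fr p η) := by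
  obtain ⟨m, hm⟩ := exists_nat_gt (max (R / D) 0)
  have hm0 : (0 : ℝ) < m := (le_max_right _ _).trans_lt hm
  have hm1 : 0 < m := by exact_mod_cast hm0
  have hmR : R / m < D := by
    have h1 := (le_max_left (R / D) 0).trans_lt hm
    rw [div_lt_iff₀ hD] at h1
    rw [div_lt_iff₀ hm0]
    linarith
  refine ⟨fun ξ => chB e p m m ξ, ?_, fun ξ hξ => ?_, chB_zero_vec F p m m⟩
  · refine (contMDiff_chB F p m m).congr fun q => ?_
    refine Jac.tb_congr ?_ rfl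
    have h1 : (m : ℝ) / m = 1 := div_self hm0.ne'
    rw [chx, h1]
    exact (Jac.gam_one p _).symm
  · refine chB_injective F hB p hm1 (lt_of_lt_of_le ?_ hmR.le) m
    gcongr

end

end Vale.Agent.P231.WG
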